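import Mathlib

/-!
# S0181 — package F (helper13): transfer of the norm bound through the similarity `S`

`‖Y‖ ≤ √κ² · ‖(S ⊗ 1) Y (S ⊗ 1)⁻¹‖` for block matrices over `Fin n × Fin m`, when `S ≥ 0`,
`S * S = H`, `1 ≤ H ≤ κ²`.  Mathlib only.  Every proof in this file is complete.
-/

set_option autoImplicit false

namespace Crest.Agent.S0181.Helper13

open scoped ComplexOrder Kronecker
open Matrix

/-- Squared Euclidean length of a coordinate vector. -/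
noncomputable def sq {n : ℕ} (v : Fin n → ℂ) : ℝ := ∑ i, ‖v i‖ ^ 2

theorem sq_nonneg' {n : ℕ} (v : Fin n → ℂ) : 0 ≤ sq v :=
  Finset.sum_nonneg (fun _ _ => by positivity)

theorem re_star_dotProduct_self {n : ℕ} (w : Fin n → ℂ) : (star w ⬝ᵥ w).re = sq w := by
  unfold sq dotProduct
  rw [Complex.re_sum]
  apply Finset.sum_congr rfl
  intro i _
  simp only [Pi.star_apply, RCLike.star_def]
  rw [Complex.conj_mul', ← Complex.ofReal_pow, Complex.ofReal_re]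

theorem sq_mulVec {n : ℕ} (A : Matrix (Fin n) (Fin n) ℂ) (v : Fin n → ℂ) :
    sq (A *ᵥ v) = (star v ⬝ᵥ ((Aᴴ * A) *ᵥ v)).re := by
  rw [← re_star_dotProduct_self, Matrix.star_mulVec]
  simp only [Matrix.dotProduct_mulVec, Matrix.vecMul_vecMul]

/-- `‖S v‖² ≤ κ² ‖v‖²`. -/
theorem sq_mulVec_le {n : ℕ} (S H : Matrix (Fin n) (Fin n) ℂ) (κsq : ℝ)
    (hS : S.PosSemidef) (hSS : S * S = H)
    (hH2 : ((κsq : ℂ) • (1 : Matrix (Fin n) (Fin n) ℂ) - H).PosSemidef) (v : Fin n → ℂ) :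
    sq (S *ᵥ v) ≤ κsq * sq v := by
  have h := hH2.dotProduct_mulVec_nonneg v
  rw [Matrix.sub_mulVec, Matrix.smul_mulVec, Matrix.one_mulVec, dotProduct_sub,
    dotProduct_smul] at h
  have h2 := (Complex.nonneg_iff.mp h).1
  rw [sq_mulVec, hS.1.eq, hSS]
  rw [Complex.sub_re, smul_eq_mul, Complex.re_ofReal_mul, re_star_dotProduct_self] at h2
  linarith

/-- `‖v‖² ≤ ‖S v‖²`. -/
theorem sq_le_sq_mulVec {n : ℕ} (S H : Matrix (Fin n) (Fin n) ℂ)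
    (hS : S.PosSemidef) (hSS : S * S = H) (hH1 : (H - 1).PosSemidef) (v : Fin n → ℂ) :
    sq v ≤ sq (S *ᵥ v) := by
  have h := hH1.dotProduct_mulVec_nonneg v
  rw [Matrix.sub_mulVec, Matrix.one_mulVec, dotProduct_sub] at h
  have h2 := (Complex.nonneg_iff.mp h).1
  rw [sq_mulVec, hS.1.eq, hSS]
  rw [Complex.sub_re, re_star_dotProduct_self] at h2
  linarith

/-- `S` is invertible. -/
theorem det_ne_zero {n : ℕ} (S H : Matrix (Fin n) (Fin n) ℂ)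
    (hS : S.PosSemidef) (hSS : S * S = H) (hH1 : (H - 1).PosSemidef) : S.det ≠ 0 := by
  intro hdet
  obtain ⟨v, hv, hSv⟩ := Matrix.exists_mulVec_eq_zero_iff.mpr hdet
  have h := sq_le_sq_mulVec S H hS hSS hH1 v
  rw [hSv] at h
  have h0 : sq (0 : Fin n → ℂ) = 0 := by simp [sq]
  rw [h0] at h
  have h1 : sq v = 0 := le_antisymm h (sq_nonneg' v)
  apply hv
  funext i
  unfold sq at h1
  have h2 := (Finset.sum_eq_zero_iff_of_nonneg (fun i _ => by positivity)).mp h1 i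
    (Finset.mem_univ i)
  simpa using h2

/-- The action of `A ⊗ 1` on coordinates. -/
theorem kron_mulVec {n m : ℕ} (A : Matrix (Fin n) (Fin n) ℂ) (w : Fin n × Fin m → ℂ)
    (i : Fin n) (c : Fin m) :
    ((A ⊗ₖ (1 : Matrix (Fin m) (Fin m) ℂ)) *ᵥ w) (i, c) = (A *ᵥ fun j => w (j, c)) i := by
  simp only [Matrix.mulVec, dotProduct, Fintype.sum_prod_type, Matrix.kroneckerMap_apply,
    Matrix.one_apply, mul_ite, mul_one, mul_zero, ite_mul, zero_mul, Finset.sum_ite_eq,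
    Finset.mem_univ, if_true]

/-- A pointwise bound for `A` gives a norm bound for `A ⊗ 1`. -/
theorem norm_kron_le {n m : ℕ} (A : Matrix (Fin n) (Fin n) ℂ) (K : ℝ)
    (hA : ∀ v : Fin n → ℂ, sq (A *ᵥ v) ≤ K * sq v) :
    ‖Matrix.toEuclideanCLM (n := Fin n × Fin m) (𝕜 := ℂ)
        (A ⊗ₖ (1 : Matrix (Fin m) (Fin m) ℂ))‖ ≤ Real.sqrt K := by
  apply ContinuousLinearMap.opNorm_le_bound _ (Real.sqrt_nonneg K)
  intro x
  have key : ‖Matrix.toEuclideanCLM (n := Fin n × Fin m) (𝕜 := ℂ)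
        (A ⊗ₖ (1 : Matrix (Fin m) (Fin m) ℂ)) x‖ ^ 2 ≤ K * ‖x‖ ^ 2 := by
    rw [EuclideanSpace.norm_sq_eq, EuclideanSpace.norm_sq_eq, Fintype.sum_prod_type_right,
      Fintype.sum_prod_type_right, Finset.mul_sum]
    apply Finset.sum_le_sum
    intro c _
    have h := hA (fun j => x.ofLp (j, c))
    unfold sq at h
    have e : ∀ i : Fin n, (Matrix.toEuclideanCLM (n := Fin n × Fin m) (𝕜 := ℂ)
        (A ⊗ₖ (1 : Matrix (Fin m) (Fin m) ℂ)) x).ofLp (i, c)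
        = (A *ᵥ fun j => x.ofLp (j, c)) i := by
      intro i
      rw [Matrix.ofLp_toEuclideanCLM, kron_mulVec]
    simp only [e]
    exact h
  calc ‖Matrix.toEuclideanCLM (n := Fin n × Fin m) (𝕜 := ℂ)
        (A ⊗ₖ (1 : Matrix (Fin m) (Fin m) ℂ)) x‖
      = Real.sqrt (‖Matrix.toEuclideanCLM (n := Fin n × Fin m) (𝕜 := ℂ)
        (A ⊗ₖ (1 : Matrix (Fin m) (Fin m) ℂ)) x‖ ^ 2) := (Real.sqrt_sq (norm_nonneg _)).symm
    _ ≤ Real.sqrt (K * ‖x‖ ^ 2) := Real.sqrt_le_sqrt key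
    _ = Real.sqrt K * ‖x‖ := by
      rw [Real.sqrt_mul' K (by positivity), Real.sqrt_sq (norm_nonneg _)]

/-- Conjugating a block matrix by `A ⊗ 1`, `B ⊗ 1` conjugates each block. -/
theorem kron_mul_block_mul_kron {n m : ℕ} (A B : Matrix (Fin n) (Fin n) ℂ)
    (X : Fin m → Fin m → Matrix (Fin n) (Fin n) ℂ) :
    (A ⊗ₖ (1 : Matrix (Fin m) (Fin m) ℂ)) *
        (Matrix.of fun (i j : Fin n × Fin m) => X i.2 j.2 i.1 j.1) *
        (B ⊗ₖ (1 : Matrix (Fin m) (Fin m) ℂ))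
      = Matrix.of fun (i j : Fin n × Fin m) => (A * X i.2 j.2 * B) i.1 j.1 := by
  ext ⟨i, c⟩ ⟨j, d⟩
  simp only [Matrix.mul_apply, Fintype.sum_prod_type, Matrix.kroneckerMap_apply, Matrix.of_apply,
    Matrix.one_apply, mul_ite, mul_one, mul_zero, ite_mul, zero_mul, Finset.sum_ite_eq,
    Finset.sum_ite_eq', Finset.mem_univ, if_true]

/-- Package F. -/
theorem norm_conj_le {n m : ℕ} (S H : Matrix (Fin n) (Fin n) ℂ) (κsq : ℝ)
    (hS : S.PosSemidef) (hSS : S * S = H) (hH1 : (H - 1).PosSemidef)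
    (hH2 : ((κsq : ℂ) • (1 : Matrix (Fin n) (Fin n) ℂ) - H).PosSemidef)
    (Y : Fin m → Fin m → Matrix (Fin n) (Fin n) ℂ) (M : ℝ)
    (hM : ‖Matrix.toEuclideanCLM (n := Fin n × Fin m) (𝕜 := ℂ)
        (Matrix.of fun (i j : Fin n × Fin m) => (S * Y i.2 j.2 * S⁻¹) i.1 j.1)‖ ≤ M) :
    ‖Matrix.toEuclideanCLM (n := Fin n × Fin m) (𝕜 := ℂ)
        (Matrix.of fun (i j : Fin n × Fin m) => Y i.2 j.2 i.1 j.1)‖ ≤ Real.sqrt κsq * M := by
  have hdet : IsUnit S.det := isUnit_iff_ne_zero.mpr (det_ne_zero S H hS hSS hH1)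
  have hinv1 : S⁻¹ * S = 1 := Matrix.nonsing_inv_mul S hdet
  have hinv2 : S * S⁻¹ = 1 := Matrix.mul_nonsing_inv S hdet
  -- the two norm bounds
  have hb1 : ‖Matrix.toEuclideanCLM (n := Fin n × Fin m) (𝕜 := ℂ)
        (S ⊗ₖ (1 : Matrix (Fin m) (Fin m) ℂ))‖ ≤ Real.sqrt κsq :=
    norm_kron_le S κsq (sq_mulVec_le S H κsq hS hSS hH2)
  have hb2 : ‖Matrix.toEuclideanCLM (n := Fin n × Fin m) (𝕜 := ℂ)
        (S⁻¹ ⊗ₖ (1 : Matrix (Fin m) (Fin m) ℂ))‖ ≤ 1 := by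
    have h := norm_kron_le (m := m) S⁻¹ 1 (fun v => by
      have h := sq_le_sq_mulVec S H hS hSS hH1 (S⁻¹ *ᵥ v)
      rw [Matrix.mulVec_mulVec, hinv2, Matrix.one_mulVec] at h
      linarith)
    rwa [Real.sqrt_one] at h
  -- the matrix identity
  have hY : (Matrix.of fun (i j : Fin n × Fin m) => Y i.2 j.2 i.1 j.1)
      = (S⁻¹ ⊗ₖ (1 : Matrix (Fin m) (Fin m) ℂ)) *
        (Matrix.of fun (i j : Fin n × Fin m) => (S * Y i.2 j.2 * S⁻¹) i.1 j.1) *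
        (S ⊗ₖ (1 : Matrix (Fin m) (Fin m) ℂ)) := by
    rw [kron_mul_block_mul_kron S⁻¹ S (fun c d => S * Y c d * S⁻¹)]
    congr 1
    funext i j
    have e : S⁻¹ * (S * Y i.2 j.2 * S⁻¹) * S = Y i.2 j.2 := by
      calc S⁻¹ * (S * Y i.2 j.2 * S⁻¹) * S = (S⁻¹ * S) * Y i.2 j.2 * (S⁻¹ * S) := by
            simp only [Matrix.mul_assoc]
        _ = Y i.2 j.2 := by rw [hinv1, Matrix.one_mul, Matrix.mul_one]
    rw [e]
  rw [hY, map_mul, map_mul]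
  have hM0 : 0 ≤ M := le_trans (norm_nonneg _) hM
  calc ‖Matrix.toEuclideanCLM (n := Fin n × Fin m) (𝕜 := ℂ)
          (S⁻¹ ⊗ₖ (1 : Matrix (Fin m) (Fin m) ℂ)) *
        Matrix.toEuclideanCLM (n := Fin n × Fin m) (𝕜 := ℂ)
          (Matrix.of fun (i j : Fin n × Fin m) => (S * Y i.2 j.2 * S⁻¹) i.1 j.1) *
        Matrix.toEuclideanCLM (n := Fin n × Fin m) (𝕜 := ℂ)
          (S ⊗ₖ (1 : Matrix (Fin m) (Fin m) ℂ))‖
      ≤ ‖Matrix.toEuclideanCLM (n := Fin n × Fin m) (𝕜 := ℂ)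
          (S⁻¹ ⊗ₖ (1 : Matrix (Fin m) (Fin m) ℂ)) *
        Matrix.toEuclideanCLM (n := Fin n × Fin m) (𝕜 := ℂ)
          (Matrix.of fun (i j : Fin n × Fin m) => (S * Y i.2 j.2 * S⁻¹) i.1 j.1)‖ *
        ‖Matrix.toEuclideanCLM (n := Fin n × Fin m) (𝕜 := ℂ)
          (S ⊗ₖ (1 : Matrix (Fin m) (Fin m) ℂ))‖ := norm_mul_le _ _
    _ ≤ (‖Matrix.toEuclideanCLM (n := Fin n × Fin m) (𝕜 := ℂ)
          (S⁻¹ ⊗ₖ (1 : Matrix (Fin m) (Fin m) ℂ))‖ *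
        ‖Matrix.toEuclideanCLM (n := Fin n × Fin m) (𝕜 := ℂ)
          (Matrix.of fun (i j : Fin n × Fin m) => (S * Y i.2 j.2 * S⁻¹) i.1 j.1)‖) *
        ‖Matrix.toEuclideanCLM (n := Fin n × Fin m) (𝕜 := ℂ)
          (S ⊗ₖ (1 : Matrix (Fin m) (Fin m) ℂ))‖ :=
      mul_le_mul_of_nonneg_right (norm_mul_le _ _) (norm_nonneg _)
    _ ≤ (1 * M) * Real.sqrt κsq :=
      mul_le_mul (mul_le_mul hb2 hM (norm_nonneg _) zero_le_one) hb1 (norm_nonneg _)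
        (by positivity)
    _ = Real.sqrt κsq * M := by ring

end Crest.Agent.S0181.Helper13
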