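import Mathlib

/-!
# S0181 (lone statement) — common definitions

`Rm C u = (1 - ū C)⁻¹` and the operator Poisson kernel
`Kmat C u = (Rm C u)ᴴ (1 - Cᴴ C) (Rm C u)` of a square matrix `C` at a boundary point `u`.
The two `*_def` lemmas below are proved by unfolding, so that the auto-generated equation lemmas
live in THIS module only (no duplicate `Kmat.eq_1` in two modules of the closure).
-/

set_option autoImplicit false

namespace Crest.Agent.S0181

open Matrix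

/-- `(1 - ū C)⁻¹`. -/
noncomputable def Rm {n : ℕ} (C : Matrix (Fin n) (Fin n) ℂ) (u : ℂ) : Matrix (Fin n) (Fin n) ℂ :=
  (1 - star u • C)⁻¹

/-- Operator Poisson kernel of `C` at the boundary point `u`. -/
noncomputable def Kmat {n : ℕ} (C : Matrix (Fin n) (Fin n) ℂ) (u : ℂ) : Matrix (Fin n) (Fin n) ℂ :=
  (Rm C u)ᴴ * (1 - Cᴴ * C) * Rm C u

theorem Rm_def {n : ℕ} (C : Matrix (Fin n) (Fin n) ℂ) (u : ℂ) :
    Rm C u = (1 - star u • C)⁻¹ := by
  unfold Rm; rfl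

theorem Rm_def' {n : ℕ} (C : Matrix (Fin n) (Fin n) ℂ) (u : ℂ) :
    Rm C u = (1 - star u • C)⁻¹ := by
  rw [Rm]

theorem Kmat_def {n : ℕ} (C : Matrix (Fin n) (Fin n) ℂ) (u : ℂ) :
    Kmat C u = (Rm C u)ᴴ * (1 - Cᴴ * C) * Rm C u := by
  unfold Kmat; rfl

theorem Kmat_def' {n : ℕ} (C : Matrix (Fin n) (Fin n) ℂ) (u : ℂ) :
    Kmat C u = (Rm C u)ᴴ * (1 - Cᴴ * C) * Rm C u := by
  rw [Kmat]

end Crest.Agent.S0181
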