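import Mathlib
import Crest.Agent.Lib.S0181.Helper78Defs

/-!
# S0181, packages D1, D4, D5 and the assembly D (helper16)

Statements exactly as `Spec.Kmat_eq`, `Spec.continuousOn_Kmat`, `Spec.Kmat_posSemidef` in
`Crest/Agent/Lib/S0181/Helper78Spec.lean` (helper78, origin/helper78 f5d5ff0), and the matrix
Poisson formula `poisson_formula_of` with the two resolvent integrals D2, D3 as hypotheses.
-/

set_option autoImplicit false

namespace Crest.Agent.S0181.Helper16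

open scoped ComplexOrder
open Matrix

variable {n : ℕ}

lemma star_mul_self_of_norm_one {u : ℂ} (hu : ‖u‖ = 1) : star u * u = 1 := by
  rw [Complex.star_def, Complex.conj_mul', hu]; simp

lemma star_ne_zero_of_norm_one {u : ℂ} (hu : ‖u‖ = 1) : star u ≠ 0 := by
  intro h
  have h1 := star_mul_self_of_norm_one hu
  rw [h, zero_mul] at h1
  exact zero_ne_one h1

/-- On the unit circle `1 - ū C = ū (u - C)`. -/
lemma one_sub_eq (C : Matrix (Fin n) (Fin n) ℂ) (u : ℂ) (hu : ‖u‖ = 1) :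
    (1 - star u • C) = star u • (u • (1 : Matrix (Fin n) (Fin n) ℂ) - C) := by
  rw [smul_sub, smul_smul, star_mul_self_of_norm_one hu, one_smul]

lemma det_one_sub_ne (C : Matrix (Fin n) (Fin n) ℂ) (u : ℂ) (hu : ‖u‖ = 1)
    (hdet : (u • (1 : Matrix (Fin n) (Fin n) ℂ) - C).det ≠ 0) :
    (1 - star u • C).det ≠ 0 := by
  rw [one_sub_eq C u hu, Matrix.det_smul]
  exact mul_ne_zero (pow_ne_zero _ (star_ne_zero_of_norm_one hu)) hdet

/-- On the unit circle `Rm C u = u (u - C)⁻¹`. -/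
lemma Rm_eq (C : Matrix (Fin n) (Fin n) ℂ) (u : ℂ) (hu : ‖u‖ = 1)
    (hdet : (u • (1 : Matrix (Fin n) (Fin n) ℂ) - C).det ≠ 0) :
    Rm C u = u • (u • (1 : Matrix (Fin n) (Fin n) ℂ) - C)⁻¹ := by
  rw [Rm_def]
  apply Matrix.inv_eq_right_inv
  rw [one_sub_eq C u hu, Matrix.smul_mul, Matrix.mul_smul, smul_smul,
    Matrix.mul_nonsing_inv _ (isUnit_iff_ne_zero.mpr hdet), star_mul_self_of_norm_one hu, one_smul]

/-- D1: additive form of the kernel on the unit circle. -/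
theorem Kmat_eq {n : ℕ} (C : Matrix (Fin n) (Fin n) ℂ) (u : ℂ) (hu : ‖u‖ = 1)
    (hdet : (u • (1 : Matrix (Fin n) (Fin n) ℂ) - C).det ≠ 0) :
    Kmat C u = u • (u • (1 : Matrix (Fin n) (Fin n) ℂ) - C)⁻¹ + (1 - u • Cᴴ)⁻¹ - 1 := by
  have hX : IsUnit (1 - star u • C).det := isUnit_iff_ne_zero.mpr (det_one_sub_ne C u hu hdet)
  have hXR : (1 - star u • C) * Rm C u = 1 := by
    rw [Rm_def]; exact Matrix.mul_nonsing_inv _ hX
  have hY : (1 - star u • C)ᴴ = 1 - u • Cᴴ := by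
    rw [Matrix.conjTranspose_sub, Matrix.conjTranspose_one, Matrix.conjTranspose_smul]
    simp
  have hRh : (Rm C u)ᴴ = (1 - u • Cᴴ)⁻¹ := by
    rw [Rm_def, Matrix.conjTranspose_nonsing_inv, hY]
  have hRhY : (Rm C u)ᴴ * (1 - star u • C)ᴴ = 1 := by
    rw [← Matrix.conjTranspose_mul, hXR, Matrix.conjTranspose_one]
  have huu : u * star u = 1 := by rw [mul_comm]; exact star_mul_self_of_norm_one hu
  have hkey : 1 - Cᴴ * C = (1 - star u • C)ᴴ + (1 - star u • C)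
      - (1 - star u • C)ᴴ * (1 - star u • C) := by
    have h1 : (u • Cᴴ) * (star u • C) = Cᴴ * C := by
      rw [Matrix.smul_mul, Matrix.mul_smul, smul_smul, huu, one_smul]
    have h2 : ∀ P Q : Matrix (Fin n) (Fin n) ℂ, (1 - P) * (1 - Q) = 1 - Q - P + P * Q := by
      intro P Q; noncomm_ring
    rw [hY, h2, h1]
    abel
  rw [← Rm_eq C u hu hdet, ← hRh, Kmat_def, hkey]
  calc (Rm C u)ᴴ * ((1 - star u • C)ᴴ + (1 - star u • C)
        - (1 - star u • C)ᴴ * (1 - star u • C)) * Rm C u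
      = (Rm C u)ᴴ * (1 - star u • C)ᴴ * Rm C u + (Rm C u)ᴴ * ((1 - star u • C) * Rm C u)
        - (Rm C u)ᴴ * (1 - star u • C)ᴴ * ((1 - star u • C) * Rm C u) := by noncomm_ring
    _ = Rm C u + (Rm C u)ᴴ - 1 := by
      rw [hRhY, hXR]; simp

/-- Continuity of `u ↦ Rm C u` on the unit circle. -/
lemma continuousOn_Rm {n : ℕ} (C : Matrix (Fin n) (Fin n) ℂ)
    (hspec : ∀ u : ℂ, 1 ≤ ‖u‖ → (u • (1 : Matrix (Fin n) (Fin n) ℂ) - C).det ≠ 0) :
    ContinuousOn (fun u : ℂ => Rm C u) (Metric.sphere 0 1) := by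
  intro u hu
  have hu1 : ‖u‖ = 1 := by simpa using hu
  have hdet := det_one_sub_ne C u hu1 (hspec u (le_of_eq hu1.symm))
  have hc : ContinuousAt (fun v : ℂ => (1 - star v • C : Matrix (Fin n) (Fin n) ℂ)) u := by
    fun_prop
  have hinv : ContinuousAt (fun A : Matrix (Fin n) (Fin n) ℂ => A⁻¹) (1 - star u • C) := by
    apply continuousAt_matrix_inv
    rw [Ring.inverse_eq_inv']
    exact continuousAt_inv₀ hdet
  have h : ContinuousAt (fun v : ℂ => (1 - star v • C : Matrix (Fin n) (Fin n) ℂ)⁻¹) u :=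
    ContinuousAt.comp (g := fun A : Matrix (Fin n) (Fin n) ℂ => A⁻¹)
      (f := fun v : ℂ => (1 - star v • C : Matrix (Fin n) (Fin n) ℂ)) hinv hc
  have hfun : (fun u : ℂ => Rm C u) = fun v : ℂ => (1 - star v • C : Matrix (Fin n) (Fin n) ℂ)⁻¹ := by
    funext v; exact Rm_def C v
  rw [hfun]
  exact h.continuousWithinAt

/-- D4: continuity of the kernel on the unit circle. -/
theorem continuousOn_Kmat {n : ℕ} (C : Matrix (Fin n) (Fin n) ℂ)
    (hspec : ∀ u : ℂ, 1 ≤ ‖u‖ → (u • (1 : Matrix (Fin n) (Fin n) ℂ) - C).det ≠ 0) :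
    ContinuousOn (fun u : ℂ => Kmat C u) (Metric.sphere 0 1) := by
  have hR := continuousOn_Rm C hspec
  have hfun : (fun u : ℂ => Kmat C u) = fun u : ℂ => star (Rm C u) * (1 - Cᴴ * C) * Rm C u := by
    funext u; rw [Kmat_def, Matrix.star_eq_conjTranspose]
  rw [hfun]
  exact (hR.star.mul continuousOn_const).mul hR

/-- D5: positivity of the kernel for a contraction. -/
theorem Kmat_posSemidef {n : ℕ} (C : Matrix (Fin n) (Fin n) ℂ)
    (hC : (1 - Cᴴ * C).PosSemidef) (u : ℂ) : (Kmat C u).PosSemidef := by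
  rw [Kmat_def]
  exact hC.conjTranspose_mul_mul_same (Rm C u)

/-- D (assembly of D1, D4 with the two resolvent integrals D2, D3 as hypotheses): the matrix
Poisson formula on the unit circle. -/
theorem poisson_formula_of {n : ℕ} (C : Matrix (Fin n) (Fin n) ℂ)
    (hspec : ∀ u : ℂ, 1 ≤ ‖u‖ → (u • (1 : Matrix (Fin n) (Fin n) ℂ) - C).det ≠ 0)
    {R₀ : ℝ} (hR₀ : 1 < R₀) {w : ℂ → ℂ} (hw : DifferentiableOn ℂ w (Metric.ball 0 R₀))
    (W : Polynomial ℂ) (a b : Fin n)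
    (h2 : (2 * Real.pi : ℂ)⁻¹ * ∫ φ in (0:ℝ)..2 * Real.pi,
        (Complex.exp ((φ : ℂ) * Complex.I) •
          (Complex.exp ((φ : ℂ) * Complex.I) • (1 : Matrix (Fin n) (Fin n) ℂ) - C)⁻¹) a b
          * w (Complex.exp ((φ : ℂ) * Complex.I))
      = (Polynomial.aeval C W) a b)
    (h3 : (2 * Real.pi : ℂ)⁻¹ * ∫ φ in (0:ℝ)..2 * Real.pi,
        ((1 - Complex.exp ((φ : ℂ) * Complex.I) • Cᴴ)⁻¹ - 1) a b
          * w (Complex.exp ((φ : ℂ) * Complex.I))
      = 0) :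
    (2 * Real.pi : ℂ)⁻¹ * ∫ φ in (0:ℝ)..2 * Real.pi,
        Kmat C (Complex.exp ((φ : ℂ) * Complex.I)) a b * w (Complex.exp ((φ : ℂ) * Complex.I))
      = (Polynomial.aeval C W) a b := by
  have he : Continuous (fun φ : ℝ => Complex.exp ((φ : ℂ) * Complex.I)) := by fun_prop
  have hnorm : ∀ φ : ℝ, ‖Complex.exp ((φ : ℂ) * Complex.I)‖ = 1 :=
    fun φ => Complex.norm_exp_ofReal_mul_I φ
  have hsph : ∀ φ : ℝ, Complex.exp ((φ : ℂ) * Complex.I) ∈ Metric.sphere (0 : ℂ) 1 := by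
    intro φ
    rw [mem_sphere_zero_iff_norm]
    exact hnorm φ
  have hball : ∀ φ : ℝ, Complex.exp ((φ : ℂ) * Complex.I) ∈ Metric.ball (0 : ℂ) R₀ := by
    intro φ
    rw [mem_ball_zero_iff, hnorm φ]
    exact hR₀
  have hdet : ∀ φ : ℝ, (Complex.exp ((φ : ℂ) * Complex.I) • (1 : Matrix (Fin n) (Fin n) ℂ)
      - C).det ≠ 0 := fun φ => hspec _ (le_of_eq (hnorm φ).symm)
  have hKc : Continuous (fun φ : ℝ => Kmat C (Complex.exp ((φ : ℂ) * Complex.I)) a b) :=
    ((continuousOn_Kmat C hspec).comp_continuous he hsph).matrix_elem a b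
  have hRc : Continuous (fun φ : ℝ => Rm C (Complex.exp ((φ : ℂ) * Complex.I)) a b) :=
    ((continuousOn_Rm C hspec).comp_continuous he hsph).matrix_elem a b
  have hwc : Continuous (fun φ : ℝ => w (Complex.exp ((φ : ℂ) * Complex.I))) :=
    hw.continuousOn.comp_continuous he hball
  have hF1 : ∀ φ : ℝ, (Complex.exp ((φ : ℂ) * Complex.I) •
      (Complex.exp ((φ : ℂ) * Complex.I) • (1 : Matrix (Fin n) (Fin n) ℂ) - C)⁻¹) a b
      = Rm C (Complex.exp ((φ : ℂ) * Complex.I)) a b := by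
    intro φ
    rw [Rm_eq C _ (hnorm φ) (hdet φ)]
  have hpt : ∀ φ : ℝ,
      Kmat C (Complex.exp ((φ : ℂ) * Complex.I)) a b * w (Complex.exp ((φ : ℂ) * Complex.I))
      = (Complex.exp ((φ : ℂ) * Complex.I) •
          (Complex.exp ((φ : ℂ) * Complex.I) • (1 : Matrix (Fin n) (Fin n) ℂ) - C)⁻¹) a b
          * w (Complex.exp ((φ : ℂ) * Complex.I))
        + ((1 - Complex.exp ((φ : ℂ) * Complex.I) • Cᴴ)⁻¹ - 1) a b
          * w (Complex.exp ((φ : ℂ) * Complex.I)) := by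
    intro φ
    rw [Kmat_eq C _ (hnorm φ) (hdet φ)]
    simp only [Matrix.add_apply, Matrix.sub_apply]
    ring
  have hI1 : IntervalIntegrable (fun φ : ℝ => (Complex.exp ((φ : ℂ) * Complex.I) •
      (Complex.exp ((φ : ℂ) * Complex.I) • (1 : Matrix (Fin n) (Fin n) ℂ) - C)⁻¹) a b
      * w (Complex.exp ((φ : ℂ) * Complex.I))) MeasureTheory.volume 0 (2 * Real.pi) := by
    have hfun : (fun φ : ℝ => (Complex.exp ((φ : ℂ) * Complex.I) •
        (Complex.exp ((φ : ℂ) * Complex.I) • (1 : Matrix (Fin n) (Fin n) ℂ) - C)⁻¹) a b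
        * w (Complex.exp ((φ : ℂ) * Complex.I)))
        = fun φ : ℝ => Rm C (Complex.exp ((φ : ℂ) * Complex.I)) a b
          * w (Complex.exp ((φ : ℂ) * Complex.I)) := by
      funext φ; rw [hF1 φ]
    rw [hfun]
    exact (hRc.mul hwc).intervalIntegrable _ _
  have hI2 : IntervalIntegrable (fun φ : ℝ =>
      ((1 - Complex.exp ((φ : ℂ) * Complex.I) • Cᴴ)⁻¹ - 1) a b
      * w (Complex.exp ((φ : ℂ) * Complex.I))) MeasureTheory.volume 0 (2 * Real.pi) := by
    have hfun : (fun φ : ℝ => ((1 - Complex.exp ((φ : ℂ) * Complex.I) • Cᴴ)⁻¹ - 1) a b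
        * w (Complex.exp ((φ : ℂ) * Complex.I)))
        = fun φ : ℝ => Kmat C (Complex.exp ((φ : ℂ) * Complex.I)) a b
            * w (Complex.exp ((φ : ℂ) * Complex.I))
          - Rm C (Complex.exp ((φ : ℂ) * Complex.I)) a b
            * w (Complex.exp ((φ : ℂ) * Complex.I)) := by
      funext φ
      rw [hpt φ, hF1 φ]
      ring
    rw [hfun]
    exact ((hKc.mul hwc).sub (hRc.mul hwc)).intervalIntegrable _ _
  have hsplit : ∫ φ in (0:ℝ)..2 * Real.pi,
        Kmat C (Complex.exp ((φ : ℂ) * Complex.I)) a b * w (Complex.exp ((φ : ℂ) * Complex.I))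
      = (∫ φ in (0:ℝ)..2 * Real.pi, (Complex.exp ((φ : ℂ) * Complex.I) •
          (Complex.exp ((φ : ℂ) * Complex.I) • (1 : Matrix (Fin n) (Fin n) ℂ) - C)⁻¹) a b
          * w (Complex.exp ((φ : ℂ) * Complex.I)))
        + ∫ φ in (0:ℝ)..2 * Real.pi, ((1 - Complex.exp ((φ : ℂ) * Complex.I) • Cᴴ)⁻¹ - 1) a b
          * w (Complex.exp ((φ : ℂ) * Complex.I)) := by
    rw [← intervalIntegral.integral_add hI1 hI2]
    exact intervalIntegral.integral_congr (fun φ _ => hpt φ)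
  rw [hsplit, mul_add, h2, h3, add_zero]

end Crest.Agent.S0181.Helper16
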