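import Mathlib

/-!
# S0181 — packages D2 and D3 (helper28): resolvent integrals on the unit circle

`resolvent_integral` (D2) and `adjoint_resolvent_integral` (D3), with the exact statements of
`Helper78Spec`.  Mathlib only.
-/

set_option autoImplicit false

namespace Crest.Agent.S0181.Helper28

open Matrix MeasureTheory

/-- Mean value property on the unit circle, interval-integral form. -/
theorem mean_value (F : ℂ → ℂ) (hc : ContinuousOn F (Metric.closedBall 0 1))
    (hd : ∀ z ∈ Metric.ball (0:ℂ) 1, DifferentiableAt ℂ F z) :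
    ∫ φ in (0:ℝ)..2 * Real.pi, F (Complex.exp ((φ : ℂ) * Complex.I)) = 2 * Real.pi * F 0 := by
  have h := circleAverage_of_differentiable_on_off_countable (s := ∅) (f := F) (c := 0) (R := 1)
    Set.countable_empty (by simpa using hc) (by simpa using hd)
  rw [Real.circleAverage_def] at h
  simp only [circleMap, zero_add, Complex.ofReal_one, one_mul] at h
  rw [← h, Complex.real_smul]
  push_cast
  rw [← mul_assoc, mul_inv_cancel₀ (by exact_mod_cast Real.two_pi_pos.ne'), one_mul]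

/-- Reflection `φ ↦ 2π - φ` on the unit circle. -/
theorem integral_circle_neg (F : ℂ → ℂ) :
    ∫ φ in (0:ℝ)..2 * Real.pi, F (Complex.exp (-((φ : ℂ) * Complex.I))) =
      ∫ φ in (0:ℝ)..2 * Real.pi, F (Complex.exp ((φ : ℂ) * Complex.I)) := by
  have h := intervalIntegral.integral_comp_sub_left (a := 0) (b := 2 * Real.pi)
    (fun x : ℝ => F (Complex.exp ((x : ℂ) * Complex.I))) (2 * Real.pi)
  simp only [sub_self, sub_zero] at h
  rw [← h]
  refine intervalIntegral.integral_congr (fun φ _ => ?_)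
  show F _ = F _
  congr 1
  push_cast
  rw [sub_mul, Complex.exp_sub, Complex.exp_two_pi_mul_I, one_div, ← Complex.exp_neg]

/-- The determinant of a matrix with differentiable entries is differentiable. -/
theorem differentiableAt_det {n : ℕ} {A : ℂ → Matrix (Fin n) (Fin n) ℂ} {z₀ : ℂ}
    (hA : ∀ i j, DifferentiableAt ℂ (fun z => A z i j) z₀) :
    DifferentiableAt ℂ (fun z => (A z).det) z₀ := by
  simp_rw [Matrix.det_apply]
  refine DifferentiableAt.fun_sum (fun σ _ => ?_)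
  refine DifferentiableAt.const_smul ?_ _
  exact DifferentiableAt.fun_finsetProd (fun i _ => hA _ _)

/-- The adjugate of a matrix with differentiable entries has differentiable entries. -/
theorem differentiableAt_adjugate {n : ℕ} {A : ℂ → Matrix (Fin n) (Fin n) ℂ} {z₀ : ℂ}
    (hA : ∀ i j, DifferentiableAt ℂ (fun z => A z i j) z₀) (a b : Fin n) :
    DifferentiableAt ℂ (fun z => (A z).adjugate a b) z₀ := by
  simp_rw [Matrix.adjugate_apply]
  refine differentiableAt_det (fun i j => ?_)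
  simp only [Matrix.updateRow_apply]
  split_ifs
  · exact differentiableAt_const _
  · exact hA i j

/-- The inverse of a matrix with differentiable entries has differentiable entries where the
determinant does not vanish. -/
theorem differentiableAt_inv {n : ℕ} {A : ℂ → Matrix (Fin n) (Fin n) ℂ} {z₀ : ℂ}
    (hA : ∀ i j, DifferentiableAt ℂ (fun z => A z i j) z₀) (h0 : (A z₀).det ≠ 0) (a b : Fin n) :
    DifferentiableAt ℂ (fun z => (A z)⁻¹ a b) z₀ := by
  have h : (fun z => (A z)⁻¹ a b) = fun z => ((A z).det)⁻¹ * (A z).adjugate a b := by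
    funext z
    rw [Matrix.inv_def, Ring.inverse_eq_inv', Matrix.smul_apply, smul_eq_mul]
  rw [h]
  exact ((differentiableAt_det hA).inv h0).mul (differentiableAt_adjugate hA a b)


/-- `z ↦ ((1 - z • M)⁻¹) a b` is differentiable wherever `1 - z • M` is invertible. -/
theorem differentiableAt_res {n : ℕ} (M : Matrix (Fin n) (Fin n) ℂ) {z₀ : ℂ}
    (h0 : (1 - z₀ • M).det ≠ 0) (a b : Fin n) :
    DifferentiableAt ℂ (fun z : ℂ => (1 - z • M)⁻¹ a b) z₀ := by
  refine differentiableAt_inv (A := fun z => 1 - z • M) (fun i j => ?_) h0 a b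
  simp only [Matrix.sub_apply, Matrix.smul_apply, smul_eq_mul]
  fun_prop

theorem det_one_sub_smul_ne_zero {n : ℕ} (C : Matrix (Fin n) (Fin n) ℂ)
    (hspec : ∀ u : ℂ, 1 ≤ ‖u‖ → (u • (1 : Matrix (Fin n) (Fin n) ℂ) - C).det ≠ 0)
    {z : ℂ} (hz : ‖z‖ ≤ 1) : (1 - z • C).det ≠ 0 := by
  rcases eq_or_ne z 0 with rfl | hz0
  · simp
  · have h1 : (1 : Matrix (Fin n) (Fin n) ℂ) - z • C
        = z • (z⁻¹ • (1 : Matrix (Fin n) (Fin n) ℂ) - C) := by
      rw [smul_sub, smul_smul, mul_inv_cancel₀ hz0, one_smul]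
    rw [h1, Matrix.det_smul]
    refine mul_ne_zero (pow_ne_zero _ hz0) (hspec _ ?_)
    rw [norm_inv]
    exact (one_le_inv₀ (norm_pos_iff.mpr hz0)).mpr hz

theorem det_one_sub_smul_conjTranspose_ne_zero {n : ℕ} (C : Matrix (Fin n) (Fin n) ℂ)
    (hspec : ∀ u : ℂ, 1 ≤ ‖u‖ → (u • (1 : Matrix (Fin n) (Fin n) ℂ) - C).det ≠ 0)
    {z : ℂ} (hz : ‖z‖ ≤ 1) : (1 - z • Cᴴ).det ≠ 0 := by
  have h1 : (1 : Matrix (Fin n) (Fin n) ℂ) - z • Cᴴ = (1 - star z • C)ᴴ := by
    rw [Matrix.conjTranspose_sub, Matrix.conjTranspose_one, Matrix.conjTranspose_smul, star_star]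
  rw [h1, Matrix.det_conjTranspose]
  have h2 := det_one_sub_smul_ne_zero C hspec (z := star z) (by simpa using hz)
  simpa using h2

/-- **Package D3.** -/
theorem adjoint_resolvent_integral {n : ℕ} (C : Matrix (Fin n) (Fin n) ℂ)
    (hspec : ∀ u : ℂ, 1 ≤ ‖u‖ → (u • (1 : Matrix (Fin n) (Fin n) ℂ) - C).det ≠ 0)
    {R₀ : ℝ} (hR₀ : 1 < R₀) {w : ℂ → ℂ} (hw : DifferentiableOn ℂ w (Metric.ball 0 R₀))
    (a b : Fin n) :
    (2 * Real.pi : ℂ)⁻¹ * ∫ φ in (0:ℝ)..2 * Real.pi,
        ((1 - Complex.exp ((φ : ℂ) * Complex.I) • Cᴴ)⁻¹ - 1) a b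
          * w (Complex.exp ((φ : ℂ) * Complex.I))
      = 0 := by
  have hd : ∀ z ∈ Metric.closedBall (0:ℂ) 1,
      DifferentiableAt ℂ (fun z : ℂ => ((1 - z • Cᴴ)⁻¹ - 1) a b * w z) z := by
    intro z hz
    have hz1 : ‖z‖ ≤ 1 := by simpa using hz
    have hwz : DifferentiableAt ℂ w z :=
      hw.differentiableAt (Metric.isOpen_ball.mem_nhds (by
        rw [Metric.mem_ball, dist_zero_right]; linarith))
    have h1 := differentiableAt_res Cᴴ (det_one_sub_smul_conjTranspose_ne_zero C hspec hz1) a b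
    simp only [Matrix.sub_apply]
    exact (h1.sub (differentiableAt_const _)).mul hwz
  have h := mean_value (fun z : ℂ => ((1 - z • Cᴴ)⁻¹ - 1) a b * w z)
    (fun z hz => (hd z hz).continuousAt.continuousWithinAt)
    (fun z hz => hd z (Metric.ball_subset_closedBall hz))
  rw [h]
  simp

/-- On the unit circle (indeed for `u ≠ 0`), `u • (u • 1 - C)⁻¹ = (1 - u⁻¹ • C)⁻¹`. -/
theorem smul_inv_eq {n : ℕ} (C : Matrix (Fin n) (Fin n) ℂ) {u : ℂ} (hu : u ≠ 0)
    (hdet : (u • (1 : Matrix (Fin n) (Fin n) ℂ) - C).det ≠ 0) :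
    u • (u • (1 : Matrix (Fin n) (Fin n) ℂ) - C)⁻¹ = (1 - u⁻¹ • C)⁻¹ := by
  have h1 : (1 : Matrix (Fin n) (Fin n) ℂ) - u⁻¹ • C
      = u⁻¹ • (u • (1 : Matrix (Fin n) (Fin n) ℂ) - C) := by
    rw [smul_sub, smul_smul, inv_mul_cancel₀ hu, one_smul]
  rw [h1]
  refine (Matrix.inv_eq_left_inv ?_).symm
  rw [Matrix.smul_mul, Matrix.mul_smul, smul_smul, mul_inv_cancel₀ hu, one_smul,
    Matrix.nonsing_inv_mul _ (isUnit_iff_ne_zero.mpr hdet)]

theorem kernel_eq {n : ℕ} (C : Matrix (Fin n) (Fin n) ℂ)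
    (hspec : ∀ u : ℂ, 1 ≤ ‖u‖ → (u • (1 : Matrix (Fin n) (Fin n) ℂ) - C).det ≠ 0) (φ : ℝ) :
    Complex.exp ((φ : ℂ) * Complex.I) •
        (Complex.exp ((φ : ℂ) * Complex.I) • (1 : Matrix (Fin n) (Fin n) ℂ) - C)⁻¹
      = (1 - Complex.exp (-((φ : ℂ) * Complex.I)) • C)⁻¹ := by
  rw [smul_inv_eq C (Complex.exp_ne_zero _)
    (hspec _ (by rw [Complex.norm_exp_ofReal_mul_I])), Complex.exp_neg]

theorem norm_exp_neg_le (φ : ℝ) : ‖Complex.exp (-((φ : ℂ) * Complex.I))‖ ≤ 1 := by
  rw [Complex.exp_neg, norm_inv, Complex.norm_exp_ofReal_mul_I, inv_one]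

theorem continuous_kernel {n : ℕ} (C : Matrix (Fin n) (Fin n) ℂ)
    (hspec : ∀ u : ℂ, 1 ≤ ‖u‖ → (u • (1 : Matrix (Fin n) (Fin n) ℂ) - C).det ≠ 0)
    (a b : Fin n) :
    Continuous (fun φ : ℝ => (Complex.exp ((φ : ℂ) * Complex.I) •
        (Complex.exp ((φ : ℂ) * Complex.I) • (1 : Matrix (Fin n) (Fin n) ℂ) - C)⁻¹) a b) := by
  simp_rw [kernel_eq C hspec]
  refine continuous_iff_continuousAt.mpr (fun φ => ?_)
  have h1 := (differentiableAt_res C
    (det_one_sub_smul_ne_zero C hspec (norm_exp_neg_le φ)) a b).continuousAt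
  have h2 : ContinuousAt (fun φ : ℝ => Complex.exp (-((φ : ℂ) * Complex.I))) φ := by fun_prop
  exact ContinuousAt.comp (g := fun z : ℂ => (1 - z • C)⁻¹ a b) h1 h2

/-- Base case: the circle mean of the kernel is the identity. -/
theorem kernel_integral_one {n : ℕ} (C : Matrix (Fin n) (Fin n) ℂ)
    (hspec : ∀ u : ℂ, 1 ≤ ‖u‖ → (u • (1 : Matrix (Fin n) (Fin n) ℂ) - C).det ≠ 0)
    (a b : Fin n) :
    ∫ φ in (0:ℝ)..2 * Real.pi, (Complex.exp ((φ : ℂ) * Complex.I) •
        (Complex.exp ((φ : ℂ) * Complex.I) • (1 : Matrix (Fin n) (Fin n) ℂ) - C)⁻¹) a b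
      = 2 * Real.pi * (1 : Matrix (Fin n) (Fin n) ℂ) a b := by
  simp_rw [kernel_eq C hspec]
  have hd : ∀ z ∈ Metric.closedBall (0:ℂ) 1,
      DifferentiableAt ℂ (fun z : ℂ => (1 - z • C)⁻¹ a b) z := by
    intro z hz
    exact differentiableAt_res C (det_one_sub_smul_ne_zero C hspec (by simpa using hz)) a b
  rw [integral_circle_neg (fun z : ℂ => (1 - z • C)⁻¹ a b),
    mean_value (fun z : ℂ => (1 - z • C)⁻¹ a b)
      (fun z hz => (hd z hz).continuousAt.continuousWithinAt)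
      (fun z hz => hd z (Metric.ball_subset_closedBall hz))]
  simp


theorem continuous_exp_pow (j : ℕ) :
    Continuous (fun φ : ℝ => Complex.exp ((φ : ℂ) * Complex.I) ^ j) := by fun_prop

/-- Monomials: the circle mean of `kernel * u ^ j` is `C ^ j`. -/
theorem kernel_integral_pow {n : ℕ} (C : Matrix (Fin n) (Fin n) ℂ)
    (hspec : ∀ u : ℂ, 1 ≤ ‖u‖ → (u • (1 : Matrix (Fin n) (Fin n) ℂ) - C).det ≠ 0)
    (j : ℕ) : ∀ a b : Fin n,
    ∫ φ in (0:ℝ)..2 * Real.pi, (Complex.exp ((φ : ℂ) * Complex.I) •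
        (Complex.exp ((φ : ℂ) * Complex.I) • (1 : Matrix (Fin n) (Fin n) ℂ) - C)⁻¹) a b
          * Complex.exp ((φ : ℂ) * Complex.I) ^ j
      = 2 * Real.pi * (C ^ j) a b := by
  induction j with
  | zero =>
    intro a b
    simp only [pow_zero, mul_one]
    exact kernel_integral_one C hspec a b
  | succ j ih =>
    intro a b
    have hpt : ∀ φ : ℝ, (Complex.exp ((φ : ℂ) * Complex.I) •
        (Complex.exp ((φ : ℂ) * Complex.I) • (1 : Matrix (Fin n) (Fin n) ℂ) - C)⁻¹) a b
          * Complex.exp ((φ : ℂ) * Complex.I) ^ (j + 1)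
        = Complex.exp ((φ : ℂ) * Complex.I) ^ (j + 1) * (1 : Matrix (Fin n) (Fin n) ℂ) a b
          + ∑ c, ((Complex.exp ((φ : ℂ) * Complex.I) •
            (Complex.exp ((φ : ℂ) * Complex.I) • (1 : Matrix (Fin n) (Fin n) ℂ) - C)⁻¹) a c
              * Complex.exp ((φ : ℂ) * Complex.I) ^ j) * C c b := by
      intro φ
      have hdet : (Complex.exp ((φ : ℂ) * Complex.I) • (1 : Matrix (Fin n) (Fin n) ℂ) - C).det ≠ 0 :=
        hspec _ (by rw [Complex.norm_exp_ofReal_mul_I])
      generalize Complex.exp ((φ : ℂ) * Complex.I) = u at hdet ⊢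
      have hX : (u • (1 : Matrix (Fin n) (Fin n) ℂ) - C)⁻¹ * (u • 1 - C) = 1 :=
        Matrix.nonsing_inv_mul _ (isUnit_iff_ne_zero.mpr hdet)
      have hX' : (u • (1 : Matrix (Fin n) (Fin n) ℂ) - C)⁻¹ * (u • 1)
          = 1 + (u • (1 : Matrix (Fin n) (Fin n) ℂ) - C)⁻¹ * C := by
        rw [Matrix.mul_sub] at hX
        exact sub_eq_iff_eq_add.mp hX
      have hentry := congrFun (congrFun hX' a) b
      rw [Matrix.mul_smul, Matrix.mul_one, Matrix.smul_apply, Matrix.add_apply,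
        Matrix.mul_apply, smul_eq_mul] at hentry
      simp only [Matrix.smul_apply, smul_eq_mul]
      have h3 : u * (u • (1 : Matrix (Fin n) (Fin n) ℂ) - C)⁻¹ a b * u ^ (j + 1)
          = u ^ (j + 1) * (u * (u • (1 : Matrix (Fin n) (Fin n) ℂ) - C)⁻¹ a b) := by ring
      rw [h3, hentry, mul_add, Finset.mul_sum]
      congr 1
      exact Finset.sum_congr rfl (fun c _ => by ring)
    rw [intervalIntegral.integral_congr (fun φ _ => hpt φ)]
    rw [intervalIntegral.integral_add, intervalIntegral.integral_finsetSum]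
    · rw [intervalIntegral.integral_mul_const]
      have h0 := mean_value (fun z : ℂ => z ^ (j + 1)) (by fun_prop)
        (fun z _ => by fun_prop)
      simp only [ne_eq, Nat.add_eq_zero_iff, one_ne_zero, and_false, not_false_eq_true, zero_pow,
        mul_zero] at h0
      rw [h0, zero_mul, zero_add]
      simp_rw [intervalIntegral.integral_mul_const, ih]
      rw [pow_succ, Matrix.mul_apply, Finset.mul_sum]
      exact Finset.sum_congr rfl (fun c _ => by ring)
    · intro c _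
      exact (((continuous_kernel C hspec a c).mul (continuous_exp_pow j)).mul
        continuous_const).intervalIntegrable _ _
    · exact ((continuous_exp_pow (j + 1)).mul continuous_const).intervalIntegrable _ _
    · exact (continuous_finsetSum _ (fun c _ =>
        ((continuous_kernel C hspec a c).mul (continuous_exp_pow j)).mul
          continuous_const)).intervalIntegrable _ _

/-- Polynomials: the circle mean of `kernel * W(u)` is `W(C)`. -/
theorem kernel_integral_poly {n : ℕ} (C : Matrix (Fin n) (Fin n) ℂ)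
    (hspec : ∀ u : ℂ, 1 ≤ ‖u‖ → (u • (1 : Matrix (Fin n) (Fin n) ℂ) - C).det ≠ 0)
    (W : Polynomial ℂ) (a b : Fin n) :
    ∫ φ in (0:ℝ)..2 * Real.pi, (Complex.exp ((φ : ℂ) * Complex.I) •
        (Complex.exp ((φ : ℂ) * Complex.I) • (1 : Matrix (Fin n) (Fin n) ℂ) - C)⁻¹) a b
          * W.eval (Complex.exp ((φ : ℂ) * Complex.I))
      = 2 * Real.pi * (Polynomial.aeval C W) a b := by
  have hpt : ∀ φ : ℝ, (Complex.exp ((φ : ℂ) * Complex.I) •
        (Complex.exp ((φ : ℂ) * Complex.I) • (1 : Matrix (Fin n) (Fin n) ℂ) - C)⁻¹) a b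
          * W.eval (Complex.exp ((φ : ℂ) * Complex.I))
      = ∑ i ∈ Finset.range (W.natDegree + 1), W.coeff i *
          ((Complex.exp ((φ : ℂ) * Complex.I) •
            (Complex.exp ((φ : ℂ) * Complex.I) • (1 : Matrix (Fin n) (Fin n) ℂ) - C)⁻¹) a b
              * Complex.exp ((φ : ℂ) * Complex.I) ^ i) := by
    intro φ
    rw [Polynomial.eval_eq_sum_range, Finset.mul_sum]
    exact Finset.sum_congr rfl (fun i _ => by ring)
  rw [intervalIntegral.integral_congr (fun φ _ => hpt φ), intervalIntegral.integral_finsetSum]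
  · simp_rw [intervalIntegral.integral_const_mul, kernel_integral_pow C hspec]
    rw [Polynomial.aeval_eq_sum_range, Matrix.sum_apply, Finset.mul_sum]
    refine Finset.sum_congr rfl (fun i _ => ?_)
    rw [Matrix.smul_apply, smul_eq_mul]
    ring
  · intro i _
    exact (continuous_const.mul ((continuous_kernel C hspec a b).mul
      (continuous_exp_pow i))).intervalIntegrable _ _

theorem eval_charpoly_eq {n : ℕ} (C : Matrix (Fin n) (Fin n) ℂ) (u : ℂ) :
    C.charpoly.eval u = (u • (1 : Matrix (Fin n) (Fin n) ℂ) - C).det := by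
  rw [Matrix.eval_charpoly, Matrix.scalar_apply, Matrix.smul_one_eq_diagonal]

/-- Remainder: the circle mean of `kernel * χ_C(u) * k(u)` vanishes. -/
theorem kernel_integral_rem {n : ℕ} (C : Matrix (Fin n) (Fin n) ℂ)
    (hspec : ∀ u : ℂ, 1 ≤ ‖u‖ → (u • (1 : Matrix (Fin n) (Fin n) ℂ) - C).det ≠ 0)
    {R₀ : ℝ} (hR₀ : 1 < R₀) {k : ℂ → ℂ} (hk : DifferentiableOn ℂ k (Metric.ball 0 R₀))
    (a b : Fin n) :
    ∫ φ in (0:ℝ)..2 * Real.pi, (Complex.exp ((φ : ℂ) * Complex.I) •
        (Complex.exp ((φ : ℂ) * Complex.I) • (1 : Matrix (Fin n) (Fin n) ℂ) - C)⁻¹) a b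
          * (C.charpoly.eval (Complex.exp ((φ : ℂ) * Complex.I))
              * k (Complex.exp ((φ : ℂ) * Complex.I)))
      = 0 := by
  have hpt : ∀ φ : ℝ, (Complex.exp ((φ : ℂ) * Complex.I) •
        (Complex.exp ((φ : ℂ) * Complex.I) • (1 : Matrix (Fin n) (Fin n) ℂ) - C)⁻¹) a b
          * (C.charpoly.eval (Complex.exp ((φ : ℂ) * Complex.I))
              * k (Complex.exp ((φ : ℂ) * Complex.I)))
      = (fun z : ℂ => z * (z • (1 : Matrix (Fin n) (Fin n) ℂ) - C).adjugate a b * k z)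
          (Complex.exp ((φ : ℂ) * Complex.I)) := by
    intro φ
    have hdet : (Complex.exp ((φ : ℂ) * Complex.I) • (1 : Matrix (Fin n) (Fin n) ℂ) - C).det ≠ 0 :=
      hspec _ (by rw [Complex.norm_exp_ofReal_mul_I])
    generalize Complex.exp ((φ : ℂ) * Complex.I) = u at hdet ⊢
    rw [eval_charpoly_eq, Matrix.inv_def, Ring.inverse_eq_inv', Matrix.smul_apply,
      Matrix.smul_apply, smul_eq_mul, smul_eq_mul]
    field_simp
  rw [intervalIntegral.integral_congr (fun φ _ => hpt φ)]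
  have hd : ∀ z ∈ Metric.closedBall (0:ℂ) 1, DifferentiableAt ℂ
      (fun z : ℂ => z * (z • (1 : Matrix (Fin n) (Fin n) ℂ) - C).adjugate a b * k z) z := by
    intro z hz
    have hz1 : ‖z‖ ≤ 1 := by simpa using hz
    have hkz : DifferentiableAt ℂ k z :=
      hk.differentiableAt (Metric.isOpen_ball.mem_nhds (by
        rw [Metric.mem_ball, dist_zero_right]; linarith))
    have hadj : DifferentiableAt ℂ
        (fun z : ℂ => (z • (1 : Matrix (Fin n) (Fin n) ℂ) - C).adjugate a b) z := by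
      refine differentiableAt_adjugate (A := fun z => z • (1 : Matrix (Fin n) (Fin n) ℂ) - C)
        (fun i j => ?_) a b
      simp only [Matrix.sub_apply, Matrix.smul_apply, smul_eq_mul]
      fun_prop
    exact (differentiableAt_id.mul hadj).mul hkz
  rw [mean_value _ (fun z hz => (hd z hz).continuousAt.continuousWithinAt)
    (fun z hz => hd z (Metric.ball_subset_closedBall hz))]
  simp

set_option linter.unusedVariables false in
/-- **Package D2.** -/
theorem resolvent_integral {n : ℕ} (C : Matrix (Fin n) (Fin n) ℂ)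
    (hspec : ∀ u : ℂ, 1 ≤ ‖u‖ → (u • (1 : Matrix (Fin n) (Fin n) ℂ) - C).det ≠ 0)
    {R₀ : ℝ} (hR₀ : 1 < R₀) {w k : ℂ → ℂ} (hw : DifferentiableOn ℂ w (Metric.ball 0 R₀))
    (hk : DifferentiableOn ℂ k (Metric.ball 0 R₀)) (W : Polynomial ℂ)
    (hdec : ∀ u ∈ Metric.ball (0:ℂ) R₀, w u = W.eval u + C.charpoly.eval u * k u) (a b : Fin n) :
    (2 * Real.pi : ℂ)⁻¹ * ∫ φ in (0:ℝ)..2 * Real.pi,
        (Complex.exp ((φ : ℂ) * Complex.I) •
          (Complex.exp ((φ : ℂ) * Complex.I) • (1 : Matrix (Fin n) (Fin n) ℂ) - C)⁻¹) a b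
          * w (Complex.exp ((φ : ℂ) * Complex.I))
      = (Polynomial.aeval C W) a b := by
  have hmem : ∀ φ : ℝ, Complex.exp ((φ : ℂ) * Complex.I) ∈ Metric.ball (0:ℂ) R₀ := by
    intro φ
    rw [Metric.mem_ball, dist_zero_right, Complex.norm_exp_ofReal_mul_I]
    exact hR₀
  have hpt : ∀ φ : ℝ, (Complex.exp ((φ : ℂ) * Complex.I) •
          (Complex.exp ((φ : ℂ) * Complex.I) • (1 : Matrix (Fin n) (Fin n) ℂ) - C)⁻¹) a b
          * w (Complex.exp ((φ : ℂ) * Complex.I))
      = (Complex.exp ((φ : ℂ) * Complex.I) •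
          (Complex.exp ((φ : ℂ) * Complex.I) • (1 : Matrix (Fin n) (Fin n) ℂ) - C)⁻¹) a b
          * W.eval (Complex.exp ((φ : ℂ) * Complex.I))
        + (Complex.exp ((φ : ℂ) * Complex.I) •
          (Complex.exp ((φ : ℂ) * Complex.I) • (1 : Matrix (Fin n) (Fin n) ℂ) - C)⁻¹) a b
          * (C.charpoly.eval (Complex.exp ((φ : ℂ) * Complex.I))
              * k (Complex.exp ((φ : ℂ) * Complex.I))) := by
    intro φ
    rw [hdec _ (hmem φ), mul_add]
  have hexp : Continuous (fun φ : ℝ => Complex.exp ((φ : ℂ) * Complex.I)) := by fun_prop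
  have hkc : Continuous (fun φ : ℝ => k (Complex.exp ((φ : ℂ) * Complex.I))) :=
    hk.continuousOn.comp_continuous hexp hmem
  have hWc : Continuous (fun φ : ℝ => W.eval (Complex.exp ((φ : ℂ) * Complex.I))) :=
    (Polynomial.continuous W).comp hexp
  have hχc : Continuous (fun φ : ℝ => C.charpoly.eval (Complex.exp ((φ : ℂ) * Complex.I))) :=
    (Polynomial.continuous C.charpoly).comp hexp
  rw [intervalIntegral.integral_congr (fun φ _ => hpt φ), intervalIntegral.integral_add]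
  · rw [kernel_integral_poly C hspec W a b, kernel_integral_rem C hspec hR₀ hk a b, add_zero,
      ← mul_assoc, inv_mul_cancel₀ (by exact_mod_cast Real.two_pi_pos.ne'), one_mul]
  · exact ((continuous_kernel C hspec a b).mul hWc).intervalIntegrable _ _
  · exact ((continuous_kernel C hspec a b).mul (hχc.mul hkc)).intervalIntegrable _ _

end Crest.Agent.S0181.Helper28
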