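import Mathlib
import Crest.Prelude.Def_NumRangeMetric

/-!
# S0181 (lone statement) — package J (helper40): spectra, similarity, the contraction

The frozen definitions of `Crest.Prelude.Def_NumRangeMetric` are opened only by `show` / `obtain`.
-/

set_option autoImplicit false

namespace Crest.Agent.S0181.Helper40

open scoped ComplexOrder
open Matrix Crest.AnalysisR.NumRange

theorem spectrum_subset_numRange {n : ℕ} (A : Matrix (Fin n) (Fin n) ℂ) :
    spectrum ℂ A ⊆ numRange A := by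
  intro μ hμ
  rw [← Matrix.spectrum_toLpLin 2] at hμ
  have h := Module.End.hasEigenvalue_iff_mem_spectrum.mpr hμ
  obtain ⟨x, hx⟩ := h.exists_hasEigenvector
  have hx0 : x ≠ 0 := hx.2
  have hxe : Matrix.toEuclideanLin A x = μ • x := hx.apply_eq_smul
  have hnx : ‖x‖ ≠ 0 := norm_ne_zero_iff.mpr hx0
  have hnx' : ((‖x‖ : ℝ) : ℂ) ≠ 0 := by exact_mod_cast hnx
  show ∃ y : EuclideanSpace ℂ (Fin n), ‖y‖ = 1 ∧ μ = inner ℂ y (Matrix.toEuclideanLin A y)
  refine ⟨((‖x‖ : ℝ) : ℂ)⁻¹ • x, ?_, ?_⟩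
  · rw [norm_smul, norm_inv, Complex.norm_real, norm_norm, inv_mul_cancel₀ hnx]
  · rw [map_smul, hxe, inner_smul_left, inner_smul_right, inner_smul_right,
      inner_self_eq_norm_sq_to_K]
    simp only [map_inv₀, Complex.conj_ofReal]
    field_simp
    rfl

theorem aeval_conj {n : ℕ} (S A : Matrix (Fin n) (Fin n) ℂ) (hS : S.det ≠ 0)
    (q : Polynomial ℂ) :
    Polynomial.aeval (S * A * S⁻¹) q = S * Polynomial.aeval A q * S⁻¹ := by
  have hU : IsUnit S.det := isUnit_iff_ne_zero.mpr hS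
  have h1 : S * S⁻¹ = 1 := Matrix.mul_nonsing_inv S hU
  have h2 : S⁻¹ * S = 1 := Matrix.nonsing_inv_mul S hU
  have hpow : ∀ k : ℕ, (S * A * S⁻¹) ^ k = S * A ^ k * S⁻¹ := by
    intro k
    induction k with
    | zero => simp [h1]
    | succ k ih =>
      rw [pow_succ, ih, pow_succ]
      calc S * A ^ k * S⁻¹ * (S * A * S⁻¹) = S * A ^ k * (S⁻¹ * S) * A * S⁻¹ := by
            simp only [Matrix.mul_assoc]
        _ = S * (A ^ k * A) * S⁻¹ := by rw [h2]; simp only [Matrix.mul_assoc, Matrix.one_mul]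
  induction q using Polynomial.induction_on' with
  | add p q hp hq => rw [map_add, map_add, hp, hq, Matrix.mul_add, Matrix.add_mul]
  | monomial k c =>
    rw [Polynomial.aeval_monomial, Polynomial.aeval_monomial, hpow, ← Algebra.smul_def,
      ← Algebra.smul_def, Matrix.mul_smul, Matrix.smul_mul]

theorem spectrum_conj {n : ℕ} (S A : Matrix (Fin n) (Fin n) ℂ) (hS : S.det ≠ 0) :
    spectrum ℂ (S * A * S⁻¹) = spectrum ℂ A := by
  have hU : IsUnit S.det := isUnit_iff_ne_zero.mpr hS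
  exact spectrum.units_conjugate (R := ℂ) (a := A) (u := Matrix.nonsingInvUnit S hU)

theorem metric_facts {n : ℕ} (T H S : Matrix (Fin n) (Fin n) ℂ) (κsq : ℝ)
    (hH : MetricFeasible T H κsq) (hS₁ : S.PosSemidef) (hS₂ : S * S = H) :
    S.det ≠ 0 ∧ (1 - (S * T * S⁻¹)ᴴ * (S * T * S⁻¹)).PosSemidef := by
  obtain ⟨h1, -, h3⟩ := hH
  have hHpd : H.PosDef := by
    have : H = 1 + (H - 1) := by abel
    rw [this]
    exact Matrix.PosDef.one.add_posSemidef h1
  have hdetH : H.det ≠ 0 := ne_of_gt hHpd.det_pos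
  have hdetS : S.det ≠ 0 := by
    intro h0
    apply hdetH
    rw [← hS₂, Matrix.det_mul, h0, mul_zero]
  refine ⟨hdetS, ?_⟩
  have hU : IsUnit S.det := isUnit_iff_ne_zero.mpr hdetS
  have e1 : S * S⁻¹ = 1 := Matrix.mul_nonsing_inv S hU
  have e2 : S⁻¹ * S = 1 := Matrix.nonsing_inv_mul S hU
  have hSh : Sᴴ = S := hS₁.isHermitian
  have hSih : (S⁻¹)ᴴ = S⁻¹ := by rw [Matrix.conjTranspose_nonsing_inv, hSh]
  have key : 1 - (S * T * S⁻¹)ᴴ * (S * T * S⁻¹) = (S⁻¹)ᴴ * (H - Tᴴ * H * T) * S⁻¹ := by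
    rw [Matrix.conjTranspose_mul, Matrix.conjTranspose_mul, hSih, hSh, Matrix.mul_sub,
      Matrix.sub_mul, ← hS₂]
    have a1 : S⁻¹ * (S * S) * S⁻¹ = 1 := by
      calc S⁻¹ * (S * S) * S⁻¹ = (S⁻¹ * S) * (S * S⁻¹) := by simp only [Matrix.mul_assoc]
        _ = 1 := by rw [e1, e2, Matrix.one_mul]
    have a2 : S⁻¹ * (Tᴴ * S) * (S * T * S⁻¹) = S⁻¹ * (Tᴴ * (S * S) * T) * S⁻¹ := by
      simp only [Matrix.mul_assoc]
    rw [a1, a2]
  rw [key]
  exact h3.conjTranspose_mul_mul_same S⁻¹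

theorem det_ne_zero_of_spectrum {n : ℕ} (C : Matrix (Fin n) (Fin n) ℂ)
    (h : ∀ μ ∈ spectrum ℂ C, ‖μ‖ < 1) :
    ∀ u : ℂ, 1 ≤ ‖u‖ → (u • (1 : Matrix (Fin n) (Fin n) ℂ) - C).det ≠ 0 := by
  intro u hu hdet
  have hmem : u ∈ spectrum ℂ C := by
    rw [spectrum.mem_iff, Algebra.algebraMap_eq_smul_one, Matrix.isUnit_iff_isUnit_det, hdet]
    exact not_isUnit_zero
  exact absurd (h u hmem) (not_lt.mpr hu)

theorem spectrum_aeval_subset {n : ℕ} (A : Matrix (Fin n) (Fin n) ℂ) (p : Polynomial ℂ) :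
    spectrum ℂ (Polynomial.aeval A p) ⊆ (fun z => p.eval z) '' spectrum ℂ A := by
  rcases subsingleton_or_nontrivial (Matrix (Fin n) (Fin n) ℂ) with hsub | hnt
  · rw [spectrum.of_subsingleton]
    exact Set.empty_subset _
  · have hne : (spectrum ℂ A).Nonempty :=
      spectrum.nonempty_of_isAlgClosed_of_finiteDimensional ℂ A
    rw [spectrum.map_polynomial_aeval_of_nonempty A p hne]

end Crest.Agent.S0181.Helper40
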