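import Mathlib

/-!
# S0181 — package I (helper43): a disc of radius `> 1` inside `f '' (U ∩ V)`

Self-contained (Mathlib only; package A is not needed: the openness of the image of an injective
holomorphic map is obtained from the open mapping theorem on small balls).
-/

set_option autoImplicit false

namespace Crest.Agent.S0181.Helper43

open Metric Set

/-- An injective holomorphic map on an open set has open image. -/
theorem isOpen_image_of_injOn {W : Set ℂ} (hW : IsOpen W) {f : ℂ → ℂ}
    (hf : DifferentiableOn ℂ f W) (hinj : Set.InjOn f W) : IsOpen (f '' W) := by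
  rw [isOpen_iff_mem_nhds]
  rintro _ ⟨z, hz, rfl⟩
  obtain ⟨ε, hε, hball⟩ := Metric.isOpen_iff.mp hW z hz
  have hfan : AnalyticOnNhd ℂ f (ball z ε) := (hf.mono hball).analyticOnNhd isOpen_ball
  rcases hfan.is_constant_or_isOpen (convex_ball z ε).isPreconnected with ⟨w, hw⟩ | hopen
  · -- constant on the ball: impossible for an injective map
    exfalso
    have h1 : z ∈ ball z ε := mem_ball_self hε
    have h2 : z + ((ε / 2 : ℝ) : ℂ) ∈ ball z ε := by
      rw [mem_ball, dist_eq_norm, add_sub_cancel_left, Complex.norm_real, Real.norm_eq_abs,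
        abs_of_pos (by linarith : (0 : ℝ) < ε / 2)]
      linarith
    have h3 := hinj (hball h1) (hball h2) ((hw z h1).trans (hw _ h2).symm)
    have h4 : ((ε / 2 : ℝ) : ℂ) = 0 := by
      have := congrArg (fun t => t - z) h3
      simpa using this.symm
    have h5 : (ε / 2 : ℝ) = 0 := by exact_mod_cast h4
    linarith
  · exact Filter.mem_of_superset
      ((hopen (ball z ε) subset_rfl isOpen_ball).mem_nhds (mem_image_of_mem f (mem_ball_self hε)))
      (image_mono hball)

/-- **Package I.** -/
theorem exists_radius (Ω U V : Set ℂ) (hΩ₂ : Bornology.IsBounded Ω)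
    (hU : IsOpen U) (hΩU : closure Ω ⊆ U) (hV : IsOpen V) (hΩV : closure Ω ⊆ V)
    (f : ℂ → ℂ) (hf₁ : DifferentiableOn ℂ f U) (hf₂ : Set.InjOn f U)
    (hf₃ : f '' Ω = Metric.ball 0 1) :
    ∃ R₀ : ℝ, 1 < R₀ ∧ Metric.ball (0:ℂ) R₀ ⊆ f '' (U ∩ V) := by
  have hW : IsOpen (U ∩ V) := hU.inter hV
  have hopen : IsOpen (f '' (U ∩ V)) :=
    isOpen_image_of_injOn hW (hf₁.mono inter_subset_left) (hf₂.mono inter_subset_left)
  have hK : IsCompact (closure Ω) :=
    Metric.isCompact_of_isClosed_isBounded isClosed_closure hΩ₂.closure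
  have hKW : closure Ω ⊆ U ∩ V := subset_inter hΩU hΩV
  have hfK : IsCompact (f '' closure Ω) :=
    hK.image_of_continuousOn (hf₁.continuousOn.mono hΩU)
  have hsub : closedBall (0:ℂ) 1 ⊆ f '' closure Ω := by
    rw [← closure_ball (0:ℂ) one_ne_zero, ← hf₃]
    exact closure_minimal (image_mono subset_closure) hfK.isClosed
  have hsub2 : closedBall (0:ℂ) 1 ⊆ f '' (U ∩ V) := hsub.trans (image_mono hKW)
  obtain ⟨δ, hδ, hthick⟩ :=
    (isCompact_closedBall (0:ℂ) 1).exists_thickening_subset_open hopen hsub2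
  refine ⟨δ + 1, by linarith, ?_⟩
  rw [← thickening_closedBall hδ zero_le_one (0:ℂ)]
  exact hthick

end Crest.Agent.S0181.Helper43
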