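import Mathlib

/-!
# S0181 — package C (helper46): division of a holomorphic function by a polynomial

If `P ≠ 0` is a complex polynomial all of whose roots lie in the open set `O` and `w` is
holomorphic on `O`, then `w = W + P · k` on `O` with `W` a polynomial and `k` holomorphic on `O`.
-/

set_option autoImplicit false

namespace Crest.Agent.S0181.Helper46

open Polynomial

theorem exists_div_decomp_aux : ∀ (d : ℕ) (P : Polynomial ℂ), P ≠ 0 → P.natDegree = d →
    ∀ {O : Set ℂ}, IsOpen O → (∀ μ, P.IsRoot μ → μ ∈ O) →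
    ∀ {w : ℂ → ℂ}, DifferentiableOn ℂ w O →
    ∃ (W : Polynomial ℂ) (k : ℂ → ℂ), DifferentiableOn ℂ k O ∧
      ∀ u ∈ O, w u = W.eval u + P.eval u * k u := by
  intro d
  induction d with
  | zero =>
    intro P hP hd O hO hroots w hw
    obtain ⟨c, rfl⟩ : ∃ c, P = C c := ⟨P.coeff 0, Polynomial.eq_C_of_natDegree_eq_zero hd⟩
    have hc : c ≠ 0 := by
      rintro rfl
      simp at hP
    refine ⟨0, fun u => c⁻¹ * w u, hw.const_mul c⁻¹, fun u hu => ?_⟩
    simp [mul_inv_cancel_left₀ hc]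
  | succ d ih =>
    intro P hP hd O hO hroots w hw
    have hdeg : 0 < P.degree := by
      rw [Polynomial.degree_eq_natDegree hP, hd]
      exact_mod_cast Nat.succ_pos d
    obtain ⟨μ, hμ⟩ := Complex.exists_root hdeg
    have hPQ : (X - C μ) * (P /ₘ (X - C μ)) = P :=
      Polynomial.mul_divByMonic_eq_iff_isRoot.mpr hμ
    have hQ0 : P /ₘ (X - C μ) ≠ 0 := by
      intro h
      rw [h, mul_zero] at hPQ
      exact hP hPQ.symm
    have hQd : (P /ₘ (X - C μ)).natDegree = d := by
      rw [Polynomial.natDegree_divByMonic P (monic_X_sub_C μ), hd, natDegree_X_sub_C]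
      rfl
    have hQroots : ∀ ν, (P /ₘ (X - C μ)).IsRoot ν → ν ∈ O := by
      intro ν hν
      apply hroots
      rw [← hPQ]
      simp [Polynomial.IsRoot, hν.eq_zero]
    obtain ⟨W₁, k₁, hk₁, hdec⟩ := ih (P /ₘ (X - C μ)) hQ0 hQd hO hQroots hw
    have hμO : μ ∈ O := hroots μ hμ
    refine ⟨W₁ + C (k₁ μ) * (P /ₘ (X - C μ)), dslope k₁ μ,
      (Complex.differentiableOn_dslope (hO.mem_nhds hμO)).mpr hk₁, fun u hu => ?_⟩
    have h := sub_smul_dslope k₁ μ u
    rw [smul_eq_mul] at h
    have hPu : P.eval u = (u - μ) * (P /ₘ (X - C μ)).eval u := by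
      conv_lhs => rw [← hPQ]
      simp
    rw [hdec u hu, hPu]
    simp only [eval_add, eval_mul, eval_C]
    linear_combination (-((P /ₘ (X - C μ)).eval u)) * h

/-- Package C: division of a holomorphic function by a polynomial. -/
theorem exists_div_decomp (P : Polynomial ℂ) (hP : P ≠ 0) {O : Set ℂ} (hO : IsOpen O)
    (hroots : ∀ μ, P.IsRoot μ → μ ∈ O) {w : ℂ → ℂ} (hw : DifferentiableOn ℂ w O) :
    ∃ (W : Polynomial ℂ) (k : ℂ → ℂ), DifferentiableOn ℂ k O ∧
      ∀ u ∈ O, w u = W.eval u + P.eval u * k u :=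
  exists_div_decomp_aux P.natDegree P hP rfl hO hroots hw

end Crest.Agent.S0181.Helper46
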