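import Mathlib

/-!
# S0181 — package G (helper55): the functional-calculus transfer `aeval_comp_eq_of_agree`

If `p` agrees with `f` and `q` with `v = w ∘ f` to order `n` at every eigenvalue of the `n × n`
matrix `A`, and `w = W + χ_{p(A)} · k` near `f μ`, then `W(p(A)) = q(A)`.
-/

set_option autoImplicit false

namespace Crest.Agent.S0181.Helper55

open Polynomial Filter Topology

/-- Polynomial functions are analytic. -/
theorem analyticAt_eval (Q : Polynomial ℂ) (μ : ℂ) : AnalyticAt ℂ (fun z => Q.eval z) μ :=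
  (Polynomial.differentiable Q).analyticAt μ

/-- Divisibility by `(X - μ)^m` gives analytic order at least `m`. -/
theorem order_eval_of_dvd {Q : Polynomial ℂ} {μ : ℂ} {m : ℕ} (h : (X - C μ) ^ m ∣ Q) :
    (m : ℕ∞) ≤ analyticOrderAt (fun z => Q.eval z) μ := by
  obtain ⟨Q', rfl⟩ := h
  rw [natCast_le_analyticOrderAt (analyticAt_eval _ μ)]
  exact ⟨fun z => Q'.eval z, analyticAt_eval _ μ, Eventually.of_forall fun z => by simp⟩

/-- Analytic order at least `m` gives divisibility by `(X - μ)^m`. -/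
theorem dvd_of_order_eval {r : Polynomial ℂ} (hr : r ≠ 0) {μ : ℂ} {m : ℕ}
    (h : (m : ℕ∞) ≤ analyticOrderAt (fun z => r.eval z) μ) : (X - C μ) ^ m ∣ r := by
  obtain ⟨r', hr', hnd⟩ := exists_eq_pow_rootMultiplicity_mul_and_not_dvd r hr μ
  have hne : r'.eval μ ≠ 0 := fun h0 => hnd (dvd_iff_isRoot.2 h0)
  have hord : analyticOrderAt (fun z => r.eval z) μ = (rootMultiplicity μ r : ℕ∞) := by
    rw [(analyticAt_eval r μ).analyticOrderAt_eq_natCast]
    refine ⟨fun z => r'.eval z, analyticAt_eval _ μ, hne, Eventually.of_forall fun z => ?_⟩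
    conv_lhs => rw [hr']
    simp
  rw [hord] at h
  have hle : m ≤ rootMultiplicity μ r := by exact_mod_cast h
  exact (pow_dvd_pow _ hle).trans (Dvd.intro _ hr'.symm)

/-- Agreement of the first `n` derivatives gives order at least `n` for the difference. -/
theorem order_sub_of_iteratedDeriv_eq {g₁ g₂ : ℂ → ℂ} {μ : ℂ} (h1 : AnalyticAt ℂ g₁ μ)
    (h2 : AnalyticAt ℂ g₂ μ) (n : ℕ)
    (h : ∀ j < n, iteratedDeriv j g₁ μ = iteratedDeriv j g₂ μ) :
    (n : ℕ∞) ≤ analyticOrderAt (fun z => g₁ z - g₂ z) μ := by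
  have han : AnalyticAt ℂ (fun z => g₁ z - g₂ z) μ := h1.fun_sub h2
  rw [natCast_le_analyticOrderAt_iff_iteratedDeriv_eq_zero han]
  intro j hj
  have := iteratedDeriv_sub (n := j) (h1.contDiffAt (n := j)) (h2.contDiffAt (n := j))
  rw [show (fun z => g₁ z - g₂ z) = g₁ - g₂ from rfl, this, h j hj, sub_self]

/-- Composition with an analytic function respects agreement to order `N`. -/
theorem order_comp_sub (N : ℕ) : ∀ (w g₁ g₂ : ℂ → ℂ) (μ : ℂ), AnalyticAt ℂ g₁ μ →
    AnalyticAt ℂ g₂ μ → AnalyticAt ℂ w (g₁ μ) →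
    (N : ℕ∞) ≤ analyticOrderAt (fun z => g₁ z - g₂ z) μ →
    (N : ℕ∞) ≤ analyticOrderAt (fun z => w (g₁ z) - w (g₂ z)) μ := by
  induction N with
  | zero => intro w g₁ g₂ μ _ _ _ _; simp
  | succ N ih =>
    intro w g₁ g₂ μ h1 h2 hw hord
    have hdiff_an : AnalyticAt ℂ (fun z => g₁ z - g₂ z) μ := h1.fun_sub h2
    have h0 : g₁ μ - g₂ μ = 0 := by
      have hne : analyticOrderAt (fun z => g₁ z - g₂ z) μ ≠ 0 := by
        intro h0
        rw [h0] at hord
        simp at hord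
      exact apply_eq_zero_of_analyticOrderAt_ne_zero (f := fun z => g₁ z - g₂ z) hne
    have hc : g₂ μ = g₁ μ := (sub_eq_zero.1 h0).symm
    have hw2 : AnalyticAt ℂ w (g₂ μ) := hc ▸ hw
    have hh_an : AnalyticAt ℂ (fun z => w (g₁ z) - w (g₂ z)) μ :=
      (hw.fun_comp h1).fun_sub (hw2.fun_comp h2)
    have hh0 : (fun z => w (g₁ z) - w (g₂ z)) μ = 0 := by simp [hc]
    have e1 := h1.eventually_analyticAt
    have e2 := h2.eventually_analyticAt
    have e3 : ∀ᶠ z in 𝓝 μ, AnalyticAt ℂ w (g₁ z) :=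
      h1.continuousAt.eventually hw.eventually_analyticAt
    have e4 : ∀ᶠ z in 𝓝 μ, AnalyticAt ℂ w (g₂ z) :=
      h2.continuousAt.eventually hw2.eventually_analyticAt
    have hev : deriv (fun z => w (g₁ z) - w (g₂ z)) =ᶠ[𝓝 μ]
        ((fun z => deriv w (g₁ z) - deriv w (g₂ z)) * deriv g₁ +
          (fun z => deriv w (g₂ z)) * (fun z => deriv g₁ z - deriv g₂ z)) := by
      filter_upwards [e1, e2, e3, e4] with z a1 a2 a3 a4
      have d1 : HasDerivAt (fun z => w (g₁ z)) (deriv w (g₁ z) * deriv g₁ z) z :=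
        (a3.differentiableAt.hasDerivAt).comp z a1.differentiableAt.hasDerivAt
      have d2 : HasDerivAt (fun z => w (g₂ z)) (deriv w (g₂ z) * deriv g₂ z) z :=
        (a4.differentiableAt.hasDerivAt).comp z a2.differentiableAt.hasDerivAt
      have hd := (d1.sub d2).deriv
      rw [show (fun z => w (g₁ z) - w (g₂ z)) = (fun z => w (g₁ z)) - (fun z => w (g₂ z)) from rfl,
        hd]
      simp only [Pi.add_apply, Pi.mul_apply]
      ring
    have hN : ((N + 1 : ℕ) : ℕ∞) = (N : ℕ∞) + 1 := by push_cast; rfl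
    rw [hN, ← analyticOrderAt_deriv_ge_iff hh_an hh0, analyticOrderAt_congr hev]
    have A1 : AnalyticAt ℂ (fun z => deriv w (g₁ z) - deriv w (g₂ z)) μ :=
      (hw.deriv.fun_comp h1).fun_sub (hw2.deriv.fun_comp h2)
    have A2 : AnalyticAt ℂ (fun z => deriv w (g₂ z)) μ := hw2.deriv.fun_comp h2
    have A3 : AnalyticAt ℂ (fun z => deriv g₁ z - deriv g₂ z) μ := h1.deriv.fun_sub h2.deriv
    have o1 : (N : ℕ∞) ≤ analyticOrderAt (fun z => deriv w (g₁ z) - deriv w (g₂ z)) μ :=
      ih (deriv w) g₁ g₂ μ h1 h2 hw.deriv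
        (le_trans (by exact_mod_cast Nat.le_succ N) hord)
    have o2 : (N : ℕ∞) ≤ analyticOrderAt (fun z => deriv g₁ z - deriv g₂ z) μ := by
      have hd : deriv (fun z => g₁ z - g₂ z) =ᶠ[𝓝 μ] fun z => deriv g₁ z - deriv g₂ z := by
        filter_upwards [e1, e2] with z a1 a2
        exact deriv_fun_sub a1.differentiableAt a2.differentiableAt
      rw [← analyticOrderAt_congr hd, analyticOrderAt_deriv_ge_iff hdiff_an h0, ← hN]
      exact hord
    have p1 : (N : ℕ∞) ≤ analyticOrderAt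
        ((fun z => deriv w (g₁ z) - deriv w (g₂ z)) * deriv g₁) μ := by
      rw [analyticOrderAt_mul A1 h1.deriv]
      exact le_trans o1 le_self_add
    have p2 : (N : ℕ∞) ≤ analyticOrderAt
        ((fun z => deriv w (g₂ z)) * (fun z => deriv g₁ z - deriv g₂ z)) μ := by
      rw [analyticOrderAt_mul A2 A3]
      exact le_trans o2 le_add_self
    exact le_trans (le_min p1 p2) le_analyticOrderAt_add

/-- Package G: the functional-calculus transfer. -/
theorem aeval_comp_eq_of_agree {n : ℕ} (A : Matrix (Fin n) (Fin n) ℂ) (p q W : Polynomial ℂ)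
    (f v w k : ℂ → ℂ)
    (hf : ∀ μ ∈ spectrum ℂ A, AnalyticAt ℂ f μ) (hv : ∀ μ ∈ spectrum ℂ A, AnalyticAt ℂ v μ)
    (hw : ∀ μ ∈ spectrum ℂ A, AnalyticAt ℂ w (f μ)) (hk : ∀ μ ∈ spectrum ℂ A, AnalyticAt ℂ k (f μ))
    (hpf : ∀ μ ∈ spectrum ℂ A, ∀ j < n,
      iteratedDeriv j (fun z => p.eval z) μ = iteratedDeriv j f μ)
    (hqv : ∀ μ ∈ spectrum ℂ A, ∀ j < n,
      iteratedDeriv j (fun z => q.eval z) μ = iteratedDeriv j v μ)
    (hwf : ∀ μ ∈ spectrum ℂ A, ∀ᶠ z in nhds μ, w (f z) = v z)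
    (hdec : ∀ μ ∈ spectrum ℂ A, ∀ᶠ u in nhds (f μ),
      w u = W.eval u + (Polynomial.aeval A p).charpoly.eval u * k u) :
    Polynomial.aeval A (W.comp p) = Polynomial.aeval A q := by
  set r : Polynomial ℂ := W.comp p - q with hr
  suffices hdvd : minpoly ℂ A ∣ r by
    have h0 : aeval A r = 0 := (minpoly.dvd_iff).1 hdvd
    rw [hr, map_sub, sub_eq_zero] at h0
    exact h0
  by_cases hr0 : r = 0
  · rw [hr0]; exact dvd_zero _
  have hint : IsIntegral ℂ A := Matrix.isIntegral A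
  have hP0 : minpoly ℂ A ≠ 0 := minpoly.ne_zero hint
  rw [IsAlgClosed.dvd_iff_roots_le_roots hP0 hr0, Multiset.le_iff_count]
  intro μ
  rw [count_roots, count_roots]
  set m := rootMultiplicity μ (minpoly ℂ A) with hm
  by_cases hm0 : m = 0
  · rw [hm0]; exact Nat.zero_le _
  have hdm : (X - C μ) ^ m ∣ minpoly ℂ A := pow_rootMultiplicity_dvd _ _
  have hdc : (X - C μ) ^ m ∣ A.charpoly := hdm.trans (Matrix.minpoly_dvd_charpoly A)
  have hμ : μ ∈ spectrum ℂ A := by
    rw [Matrix.mem_spectrum_iff_isRoot_charpoly]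
    have : (X - C μ) ∣ A.charpoly := (dvd_pow_self _ hm0).trans hdc
    exact dvd_iff_isRoot.1 this
  have hmn : m ≤ n := by
    have hne : A.charpoly ≠ 0 := (Matrix.charpoly_monic A).ne_zero
    have := natDegree_le_of_dvd hdc hne
    rw [natDegree_pow, natDegree_X_sub_C, mul_one, Matrix.charpoly_natDegree_eq_dim,
      Fintype.card_fin] at this
    exact this
  have hn : 0 < n := lt_of_lt_of_le (Nat.pos_of_ne_zero hm0) hmn
  rw [le_rootMultiplicity_iff hr0]
  apply dvd_of_order_eval hr0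
  have hfμ : p.eval μ = f μ := by simpa using hpf μ hμ 0 hn
  have hpa := analyticAt_eval p μ
  have hqa := analyticAt_eval q μ
  have hwp : AnalyticAt ℂ w (p.eval μ) := hfμ ▸ hw μ hμ
  have hkp : AnalyticAt ℂ k (p.eval μ) := hfμ ▸ hk μ hμ
  set χ := (aeval A p).charpoly with hχ
  have o1 : (n : ℕ∞) ≤ analyticOrderAt (fun z => w (p.eval z) - w (f z)) μ :=
    order_comp_sub n w (fun z => p.eval z) f μ hpa (hf μ hμ) hwp
      (order_sub_of_iteratedDeriv_eq hpa (hf μ hμ) n (hpf μ hμ))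
  have o2 : (n : ℕ∞) ≤ analyticOrderAt (fun z => v z - q.eval z) μ :=
    order_sub_of_iteratedDeriv_eq (hv μ hμ) hqa n (fun j hj => (hqv μ hμ j hj).symm)
  have hQ : minpoly ℂ A ∣ χ.comp p := by
    rw [minpoly.dvd_iff, aeval_comp]
    exact Matrix.aeval_self_charpoly _
  have o3 : (m : ℕ∞) ≤ analyticOrderAt
      ((fun z => (χ.comp p).eval z) * (fun z => k (p.eval z))) μ := by
    have hka : AnalyticAt ℂ (fun z => k (p.eval z)) μ :=
      AnalyticAt.fun_comp (g := k) (f := fun z => p.eval z) (x := μ) hkp hpa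
    rw [analyticOrderAt_mul (analyticAt_eval (χ.comp p) μ) hka]
    exact le_trans (order_eval_of_dvd (hdm.trans hQ)) le_self_add
  have hev : (fun z => r.eval z) =ᶠ[𝓝 μ]
      ((fun z => w (p.eval z) - w (f z)) + (fun z => v z - q.eval z) -
        (fun z => (χ.comp p).eval z) * (fun z => k (p.eval z))) := by
    have hd : ∀ᶠ z in 𝓝 μ,
        w (p.eval z) = W.eval (p.eval z) + χ.eval (p.eval z) * k (p.eval z) := by
      have := hdec μ hμ
      rw [← hfμ] at this
      exact hpa.continuousAt.eventually this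
    filter_upwards [hd, hwf μ hμ] with z h1 h2
    simp only [hr, eval_sub, eval_comp, Pi.add_apply, Pi.sub_apply, Pi.mul_apply]
    rw [h1, h2]
    ring
  rw [analyticOrderAt_congr hev]
  have hmn' : (m : ℕ∞) ≤ n := by exact_mod_cast hmn
  exact le_trans (le_min (le_trans (le_min (hmn'.trans o1) (hmn'.trans o2))
    le_analyticOrderAt_add) o3) le_analyticOrderAt_sub

end Crest.Agent.S0181.Helper55
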