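import Mathlib

/-!
# S0181 — package A (helper6): holomorphic inverse of an injective holomorphic map

`exists_holo_inverse` is the exact `Spec` statement of the blueprint of helper78.
Route: an injective holomorphic map has nonvanishing derivative (local normal form
`f z - f z₀ = ((z - z₀) * h z) ^ n`, strict-derivative local inverse of `z ↦ (z - z₀) * h z`
and an `n`-th root of unity), then the inverse function theorem.
-/

set_option autoImplicit false
open Filter Topology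

namespace Crest.Agent.S0181.Helper6

/-- An injective holomorphic function on an open set has nonvanishing derivative. -/
theorem deriv_ne_zero_of_injOn {U : Set ℂ} (hU : IsOpen U) {f : ℂ → ℂ}
    (hf : DifferentiableOn ℂ f U) (hinj : Set.InjOn f U) {z₀ : ℂ} (hz₀ : z₀ ∈ U) :
    deriv f z₀ ≠ 0 := by
  intro hd
  have hfa : AnalyticAt ℂ f z₀ := hf.analyticAt (hU.mem_nhds hz₀)
  set F : ℂ → ℂ := fun z => f z - f z₀ with hF
  have hFa : AnalyticAt ℂ F z₀ := hfa.sub analyticAt_const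
  have hF0 : F z₀ = 0 := by simp [hF]
  -- `F` is not eventually zero
  have hne : analyticOrderAt F z₀ ≠ ⊤ := by
    intro htop
    rw [analyticOrderAt_eq_top] at htop
    have h1 : ∀ᶠ z in 𝓝 z₀, z ∈ U ∧ F z = 0 := (hU.eventually_mem hz₀).and htop
    obtain ⟨ε, hε, hball⟩ := Metric.eventually_nhds_iff.mp h1
    have hz : dist (z₀ + ((ε / 2 : ℝ) : ℂ)) z₀ < ε := by
      rw [dist_eq_norm, add_sub_cancel_left, Complex.norm_real, Real.norm_eq_abs,
        abs_of_pos (by positivity)]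
      linarith
    obtain ⟨hzU, hz0⟩ := hball hz
    have h2 : z₀ + ((ε / 2 : ℝ) : ℂ) = z₀ := hinj hzU hz₀ (sub_eq_zero.mp hz0)
    have h3 : ((ε / 2 : ℝ) : ℂ) = 0 := by simpa using h2
    have h4 : ε / 2 = 0 := by exact_mod_cast h3
    linarith
  obtain ⟨g, hga, hg0, hFg⟩ := hFa.analyticOrderAt_ne_top.mp hne
  set n := analyticOrderNatAt F z₀ with hn
  -- the order is at least two
  have hn0 : n ≠ 0 := by
    intro h0
    have := hFg.self_of_nhds
    simp only [h0, pow_zero, one_smul, hF0] at this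
    exact hg0 this.symm
  have hn1 : n ≠ 1 := by
    intro h1
    have hde : deriv F z₀ = deriv (fun z => (z - z₀) ^ n • g z) z₀ := hFg.deriv_eq
    have hdF : deriv F z₀ = 0 := by
      have : HasDerivAt F (deriv f z₀) z₀ := hfa.differentiableAt.hasDerivAt.sub_const (f z₀)
      rw [this.deriv, hd]
    have hdg : HasDerivAt (fun z => (z - z₀) ^ n • g z) (g z₀) z₀ := by
      have h2 : HasDerivAt (fun z => (z - z₀) * g z) (1 * g z₀ + (z₀ - z₀) * deriv g z₀) z₀ :=
        ((hasDerivAt_id z₀).sub_const z₀).mul hga.differentiableAt.hasDerivAt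
      simp only [h1, pow_one, smul_eq_mul]
      simpa using h2
    rw [hdg.deriv, hdF] at hde
    exact hg0 hde.symm
  have hn2 : 1 < n := by omega
  have hnC : (n : ℂ) ≠ 0 := Nat.cast_ne_zero.mpr hn0
  -- an `n`-th root of `g` near `z₀`
  set c : ℂ := (g z₀) ^ ((n : ℂ)⁻¹) with hc_def
  have hc : c ^ n = g z₀ := Complex.cpow_nat_inv_pow _ hn0
  have hc0 : c ≠ 0 := by
    intro h
    rw [h, zero_pow hn0] at hc
    exact hg0 hc.symm
  set h : ℂ → ℂ := fun z => c * Complex.exp (Complex.log (g z / g z₀) / n) with hh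
  have hha : AnalyticAt ℂ h z₀ := by
    have h1 : AnalyticAt ℂ (fun z => g z / g z₀) z₀ := hga.div analyticAt_const hg0
    have h2 : AnalyticAt ℂ (fun z => Complex.log (g z / g z₀)) z₀ :=
      h1.clog (by rw [div_self hg0]; exact Complex.one_mem_slitPlane)
    exact analyticAt_const.mul ((h2.div analyticAt_const hnC).cexp)
  have hh0 : h z₀ = c := by simp [hh, div_self hg0]
  have hhn : ∀ᶠ z in 𝓝 z₀, h z ^ n = g z := by
    have hgz : ∀ᶠ z in 𝓝 z₀, g z ≠ 0 := hga.continuousAt.eventually_ne hg0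
    filter_upwards [hgz] with z hz
    simp only [hh, mul_pow, hc, ← Complex.exp_nat_mul]
    rw [mul_div_cancel₀ _ hnC, Complex.exp_log (div_ne_zero hz hg0)]
    field_simp
  set ψ : ℂ → ℂ := fun z => (z - z₀) * h z with hψ
  have hψ0 : ψ z₀ = 0 := by simp [hψ]
  have hψa : AnalyticAt ℂ ψ z₀ := (analyticAt_id.sub analyticAt_const).mul hha
  have hψd : HasStrictDerivAt ψ c z₀ := by
    have h1 : HasStrictDerivAt ψ (deriv ψ z₀) z₀ := hψa.hasStrictDerivAt
    have h2 : HasDerivAt ψ (1 * h z₀ + (z₀ - z₀) * deriv h z₀) z₀ :=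
      ((hasDerivAt_id z₀).sub_const z₀).mul hha.differentiableAt.hasDerivAt
    have h3 : deriv ψ z₀ = c := by
      rw [h2.deriv, hh0]; ring
    rwa [h3] at h1
  have hFψ : ∀ᶠ z in 𝓝 z₀, F z = ψ z ^ n := by
    filter_upwards [hFg, hhn] with z h1 h2
    rw [h1, smul_eq_mul, hψ, mul_pow, h2]
  -- the local inverse of `ψ`
  set χ : ℂ → ℂ := hψd.localInverse ψ c z₀ hc0 with hχ
  have hχr : ∀ᶠ y in 𝓝 (ψ z₀), ψ (χ y) = y := hψd.eventually_right_inverse hc0
  have hχc : ContinuousAt χ (ψ z₀) := (hψd.to_localInverse hc0).hasDerivAt.continuousAt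
  have hχ0 : χ (ψ z₀) = z₀ := (hψd.eventually_left_inverse hc0).self_of_nhds
  rw [hψ0] at hχr hχc hχ0
  have hgood : ∀ᶠ y in 𝓝 (0 : ℂ), ψ (χ y) = y ∧ χ y ∈ U ∧ F (χ y) = ψ (χ y) ^ n := by
    have hU' : ∀ᶠ z in 𝓝 (χ 0), z ∈ U ∧ F z = ψ z ^ n := by
      rw [hχ0]
      exact (hU.eventually_mem hz₀).and hFψ
    have h2 := hχc.eventually hU'
    filter_upwards [hχr, h2] with y h1 h2
    exact ⟨h1, h2.1, h2.2⟩
  -- a nontrivial `n`-th root of unity
  set ζ : ℂ := Complex.exp (2 * Real.pi * Complex.I / n) with hζ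
  have hprim : IsPrimitiveRoot ζ n := Complex.isPrimitiveRoot_exp n hn0
  have hζn : ζ ^ n = 1 := hprim.pow_eq_one
  have hζ1 : ζ ≠ 1 := hprim.ne_one hn2
  have hgood2 : ∀ᶠ y in 𝓝 (0 : ℂ),
      ψ (χ (ζ * y)) = ζ * y ∧ χ (ζ * y) ∈ U ∧ F (χ (ζ * y)) = ψ (χ (ζ * y)) ^ n := by
    have hcont : ContinuousAt (fun y : ℂ => ζ * y) 0 :=
      (continuous_const.mul continuous_id).continuousAt
    have hgood' : ∀ᶠ y in 𝓝 ((fun y : ℂ => ζ * y) 0),
        ψ (χ y) = y ∧ χ y ∈ U ∧ F (χ y) = ψ (χ y) ^ n := by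
      simpa using hgood
    exact hcont.eventually hgood'
  obtain ⟨ε, hε, hball⟩ := Metric.eventually_nhds_iff.mp (hgood.and hgood2)
  have hy : dist (((ε / 2 : ℝ) : ℂ)) 0 < ε := by
    rw [dist_zero_right, Complex.norm_real, Real.norm_eq_abs, abs_of_pos (by positivity)]
    linarith
  obtain ⟨⟨h1, h2, h3⟩, h4, h5, h6⟩ := hball hy
  set y : ℂ := ((ε / 2 : ℝ) : ℂ) with hy_def
  have hy0 : y ≠ 0 := by
    rw [hy_def]
    exact_mod_cast (by positivity : ε / 2 ≠ 0)
  have hFeq : F (χ y) = F (χ (ζ * y)) := by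
    rw [h3, h6, h1, h4, mul_pow, hζn, one_mul]
  have hfeq : f (χ y) = f (χ (ζ * y)) := by
    have := hFeq
    simp only [hF] at this
    exact sub_left_injective this
  have hχeq : χ y = χ (ζ * y) := hinj h2 h5 hfeq
  have hyζ : y = ζ * y := by
    calc y = ψ (χ y) := h1.symm
      _ = ψ (χ (ζ * y)) := by rw [hχeq]
      _ = ζ * y := h4
  have hprod : (1 - ζ) * y = 0 := by linear_combination hyζ
  rcases mul_eq_zero.mp hprod with h | h
  · exact hζ1 (sub_eq_zero.mp h).symm
  · exact hy0 h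

/-- **Package A** (exact `Spec` statement): an injective holomorphic map on an open set has open
image and a holomorphic inverse. -/
theorem exists_holo_inverse {U : Set ℂ} (hU : IsOpen U) {f : ℂ → ℂ}
    (hf : DifferentiableOn ℂ f U) (hinj : Set.InjOn f U) :
    ∃ g : ℂ → ℂ, IsOpen (f '' U) ∧ DifferentiableOn ℂ g (f '' U) ∧ ∀ z ∈ U, g (f z) = z := by
  classical
  have hstrict : ∀ z ∈ U, HasStrictDerivAt f (deriv f z) z := fun z hz =>
    (hf.analyticAt (hU.mem_nhds hz)).hasStrictDerivAt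
  have hd : ∀ z ∈ U, deriv f z ≠ 0 := fun z hz => deriv_ne_zero_of_injOn hU hf hinj hz
  have hleft : ∀ z ∈ U, Function.invFunOn f U (f z) = z := fun z hz =>
    hinj.leftInvOn_invFunOn hz
  refine ⟨Function.invFunOn f U, ?_, ?_, hleft⟩
  · rw [isOpen_iff_mem_nhds]
    rintro _ ⟨z, hz, rfl⟩
    rw [← (hstrict z hz).map_nhds_eq (hd z hz)]
    exact Filter.image_mem_map (hU.mem_nhds hz)
  · rintro _ ⟨z, hz, rfl⟩
    have hev : ∀ᶠ x in 𝓝 z, Function.invFunOn f U (f x) = x := by
      filter_upwards [hU.eventually_mem hz] with x hx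
      exact hleft x hx
    exact ((hstrict z hz).to_local_left_inverse (hd z hz) hev).hasDerivAt.differentiableAt
      |>.differentiableWithinAt

end Crest.Agent.S0181.Helper6
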