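import Mathlib

/-!
# S0181, package E (independent backup, helper6): norm bound for a positive matrix density

`X = (2π)⁻¹ ∫ Λ(θ) ⊗ B(θ) dθ` with `Λ(θ) ≥ 0`, `(2π)⁻¹ ∫ Λ = 1` and `‖B(θ)‖ ≤ M` has `‖X‖ ≤ M`.

Route: `Λ = Cᴴ C`, so `Λ ⊗ B = (C ⊗ 1)ᴴ (1 ⊗ B) (C ⊗ 1)` and, for vectors `x y`,
`Re ⟨y, (Λ ⊗ B) x⟩ ≤ M/2 (⟨x, (Λ ⊗ 1) x⟩ + ⟨y, (Λ ⊗ 1) y⟩)`; integrate and use the mean-one
hypothesis to get `Re ⟨y, X x⟩ ≤ M/2 (‖x‖² + ‖y‖²)`, then rescale `y`.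
-/

set_option autoImplicit false

namespace Crest.Agent.S0181.Helper6

open scoped ComplexOrder MatrixOrder Kronecker
open Matrix

/-- The inner product `⟨y, Z x⟩` in coordinates. -/
theorem inner_toEuclideanCLM_eq {ι : Type*} [Fintype ι] [DecidableEq ι] (Z : Matrix ι ι ℂ)
    (y x : EuclideanSpace ℂ ι) :
    inner ℂ y (Matrix.toEuclideanCLM (n := ι) (𝕜 := ℂ) Z x)
      = star (WithLp.ofLp y) ⬝ᵥ (Z *ᵥ WithLp.ofLp x) := by
  rw [EuclideanSpace.inner_eq_star_dotProduct, Matrix.ofLp_toEuclideanCLM, dotProduct_comm]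

/-- Entries of `(1 ⊗ B) v`. -/
theorem one_kronecker_mulVec_apply {n m : ℕ} (B : Matrix (Fin m) (Fin m) ℂ)
    (v : Fin n × Fin m → ℂ) (a : Fin n) (c : Fin m) :
    (((1 : Matrix (Fin n) (Fin n) ℂ) ⊗ₖ B) *ᵥ v) (a, c) = (B *ᵥ fun d => v (a, d)) c := by
  simp only [Matrix.mulVec, dotProduct, Fintype.sum_prod_type, Matrix.kroneckerMap_apply,
    Matrix.one_apply, ite_mul, one_mul, zero_mul]
  rw [Finset.sum_eq_single a]
  · simp
  · intro b _ hb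
    simp [Ne.symm hb]
  · intro h
    exact absurd (Finset.mem_univ a) h

/-- The block-diagonal operator `1 ⊗ B` has norm at most that of `B`. -/
theorem norm_one_kronecker_apply_le {n m : ℕ} (B : Matrix (Fin m) (Fin m) ℂ) (M : ℝ)
    (hM : ‖Matrix.toEuclideanCLM (n := Fin m) (𝕜 := ℂ) B‖ ≤ M)
    (x : EuclideanSpace ℂ (Fin n × Fin m)) :
    ‖Matrix.toEuclideanCLM (n := Fin n × Fin m) (𝕜 := ℂ)
        ((1 : Matrix (Fin n) (Fin n) ℂ) ⊗ₖ B) x‖ ≤ M * ‖x‖ := by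
  have hM0 : 0 ≤ M := le_trans (norm_nonneg _) hM
  have key : ‖Matrix.toEuclideanCLM (n := Fin n × Fin m) (𝕜 := ℂ)
        ((1 : Matrix (Fin n) (Fin n) ℂ) ⊗ₖ B) x‖ ^ 2 ≤ (M * ‖x‖) ^ 2 := by
    rw [EuclideanSpace.norm_sq_eq, mul_pow, EuclideanSpace.norm_sq_eq, Fintype.sum_prod_type,
      Fintype.sum_prod_type, Finset.mul_sum]
    refine Finset.sum_le_sum fun a _ => ?_
    have h1 : ‖Matrix.toEuclideanCLM (n := Fin m) (𝕜 := ℂ) B
        (WithLp.toLp 2 fun d => WithLp.ofLp x (a, d))‖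
          ≤ M * ‖(WithLp.toLp 2 fun d => WithLp.ofLp x (a, d) : EuclideanSpace ℂ (Fin m))‖ :=
      le_trans (ContinuousLinearMap.le_opNorm _ _)
        (mul_le_mul_of_nonneg_right hM (norm_nonneg _))
    have h2 := pow_le_pow_left₀ (norm_nonneg _) h1 2
    rw [EuclideanSpace.norm_sq_eq, mul_pow, EuclideanSpace.norm_sq_eq] at h2
    have h3 : ∀ c : Fin m,
        (Matrix.toEuclideanCLM (n := Fin n × Fin m) (𝕜 := ℂ)
          ((1 : Matrix (Fin n) (Fin n) ℂ) ⊗ₖ B) x).ofLp (a, c)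
        = (Matrix.toEuclideanCLM (n := Fin m) (𝕜 := ℂ) B
          (WithLp.toLp 2 fun d => WithLp.ofLp x (a, d))).ofLp c := by
      intro c
      rw [Matrix.ofLp_toEuclideanCLM, Matrix.ofLp_toEuclideanCLM, one_kronecker_mulVec_apply]
    simp only [h3]
    exact h2
  exact le_of_sq_le_sq key (mul_nonneg hM0 (norm_nonneg _)) |> fun h => by
    simpa [abs_of_nonneg (norm_nonneg _)] using h


/-- Pointwise inequality for the block-diagonal operator, polarised. -/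
theorem re_inner_one_kronecker_le {n m : ℕ} (B : Matrix (Fin m) (Fin m) ℂ) (M : ℝ)
    (hM : ‖Matrix.toEuclideanCLM (n := Fin m) (𝕜 := ℂ) B‖ ≤ M)
    (ξ η : EuclideanSpace ℂ (Fin n × Fin m)) :
    (inner ℂ η (Matrix.toEuclideanCLM (n := Fin n × Fin m) (𝕜 := ℂ)
        ((1 : Matrix (Fin n) (Fin n) ℂ) ⊗ₖ B) ξ)).re ≤ M / 2 * (‖ξ‖ ^ 2 + ‖η‖ ^ 2) := by
  have hM0 : 0 ≤ M := le_trans (norm_nonneg _) hM
  have h1 := re_inner_le_norm (𝕜 := ℂ) η (Matrix.toEuclideanCLM (n := Fin n × Fin m) (𝕜 := ℂ)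
        ((1 : Matrix (Fin n) (Fin n) ℂ) ⊗ₖ B) ξ)
  have h2 := norm_one_kronecker_apply_le (n := n) B M hM ξ
  have h3 : ‖η‖ * ‖Matrix.toEuclideanCLM (n := Fin n × Fin m) (𝕜 := ℂ)
        ((1 : Matrix (Fin n) (Fin n) ℂ) ⊗ₖ B) ξ‖ ≤ ‖η‖ * (M * ‖ξ‖) :=
    mul_le_mul_of_nonneg_left h2 (norm_nonneg _)
  have h4 : ‖η‖ * (M * ‖ξ‖) ≤ M / 2 * (‖ξ‖ ^ 2 + ‖η‖ ^ 2) := by
    nlinarith [mul_nonneg hM0 (sq_nonneg (‖ξ‖ - ‖η‖))]
  exact le_trans (le_trans h1 h3) h4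

/-- The quadratic form `⟨v, v⟩` in coordinates. -/
theorem star_dotProduct_self_re {ι : Type*} [Fintype ι] (v : ι → ℂ) :
    (star v ⬝ᵥ v).re = ‖(WithLp.toLp 2 v : EuclideanSpace ℂ ι)‖ ^ 2 := by
  rw [← inner_self_eq_norm_sq (𝕜 := ℂ), EuclideanSpace.inner_toLp_toLp, dotProduct_comm]
  rfl

/-- Pointwise inequality: `Re ⟨y, (Λ ⊗ B) x⟩ ≤ M/2 (⟨x, (Λ ⊗ 1) x⟩ + ⟨y, (Λ ⊗ 1) y⟩)`. -/
theorem re_kronecker_le {n m : ℕ} (L : Matrix (Fin n) (Fin n) ℂ) (hL : L.PosSemidef)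
    (B : Matrix (Fin m) (Fin m) ℂ) (M : ℝ)
    (hM : ‖Matrix.toEuclideanCLM (n := Fin m) (𝕜 := ℂ) B‖ ≤ M)
    (x y : Fin n × Fin m → ℂ) :
    (star y ⬝ᵥ ((L ⊗ₖ B) *ᵥ x)).re ≤
      M / 2 * ((star x ⬝ᵥ ((L ⊗ₖ (1 : Matrix (Fin m) (Fin m) ℂ)) *ᵥ x)).re
        + (star y ⬝ᵥ ((L ⊗ₖ (1 : Matrix (Fin m) (Fin m) ℂ)) *ᵥ y)).re) := by
  obtain ⟨C, rfl⟩ := CStarAlgebra.nonneg_iff_eq_star_mul_self.mp hL.nonneg
  set D : Matrix (Fin n × Fin m) (Fin n × Fin m) ℂ := C ⊗ₖ (1 : Matrix (Fin m) (Fin m) ℂ)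
    with hD
  have hDH : Dᴴ = Cᴴ ⊗ₖ (1 : Matrix (Fin m) (Fin m) ℂ) := by
    rw [hD, Matrix.conjTranspose_kronecker, Matrix.conjTranspose_one]
  have e1 : (star C * C) ⊗ₖ B = Dᴴ * ((1 : Matrix (Fin n) (Fin n) ℂ) ⊗ₖ B) * D := by
    rw [hDH, hD, ← Matrix.mul_kronecker_mul, ← Matrix.mul_kronecker_mul, Matrix.mul_one,
      Matrix.one_mul, Matrix.mul_one, Matrix.star_eq_conjTranspose]
  have e2 : (star C * C) ⊗ₖ (1 : Matrix (Fin m) (Fin m) ℂ) = Dᴴ * D := by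
    rw [hDH, hD, ← Matrix.mul_kronecker_mul, Matrix.mul_one, Matrix.star_eq_conjTranspose]
  have e3 : ∀ (E : Matrix (Fin n × Fin m) (Fin n × Fin m) ℂ) (u v : Fin n × Fin m → ℂ),
      star u ⬝ᵥ ((Dᴴ * E * D) *ᵥ v) = star (D *ᵥ u) ⬝ᵥ (E *ᵥ (D *ᵥ v)) := by
    intro E u v
    rw [← Matrix.mulVec_mulVec, ← Matrix.mulVec_mulVec, Matrix.dotProduct_mulVec,
      Matrix.star_mulVec]
  have e4 : ∀ (u : Fin n × Fin m → ℂ),
      star u ⬝ᵥ ((Dᴴ * D) *ᵥ u) = star (D *ᵥ u) ⬝ᵥ (D *ᵥ u) := by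
    intro u
    rw [← Matrix.mulVec_mulVec, Matrix.dotProduct_mulVec, Matrix.star_mulVec]
  rw [e1, e2, e3, e4, e4, star_dotProduct_self_re, star_dotProduct_self_re]
  have h := re_inner_one_kronecker_le (n := n) B M hM (WithLp.toLp 2 (D *ᵥ x))
    (WithLp.toLp 2 (D *ᵥ y))
  rw [inner_toEuclideanCLM_eq] at h
  exact h

/-- Continuity of `θ ↦ ⟨y, Z(θ) x⟩` for entrywise continuous `Z`. -/
theorem continuous_star_dotProduct_mulVec {ι : Type*} [Fintype ι] (Z : ℝ → Matrix ι ι ℂ)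
    (hZ : ∀ i j, Continuous fun θ => Z θ i j) (x y : ι → ℂ) :
    Continuous fun θ => star y ⬝ᵥ (Z θ *ᵥ x) := by
  simp only [dotProduct, Matrix.mulVec]
  exact continuous_finsetSum _ fun i _ =>
    continuous_const.mul (continuous_finsetSum _ fun j _ => (hZ i j).mul continuous_const)

/-- Linearity of `Z ↦ ⟨y, Z x⟩` against interval integrals. -/
theorem star_dotProduct_mulVec_integral {ι : Type*} [Fintype ι] (Z : ℝ → Matrix ι ι ℂ)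
    (hZ : ∀ i j, Continuous fun θ => Z θ i j) (X : Matrix ι ι ℂ) (c : ℂ) (a b : ℝ)
    (hX : ∀ i j, X i j = c * ∫ θ in a..b, Z θ i j) (x y : ι → ℂ) :
    star y ⬝ᵥ (X *ᵥ x) = c * ∫ θ in a..b, star y ⬝ᵥ (Z θ *ᵥ x) := by
  simp only [dotProduct, Matrix.mulVec, Pi.star_apply, hX]
  rw [intervalIntegral.integral_finsetSum]
  · rw [Finset.mul_sum]
    refine Finset.sum_congr rfl fun i _ => ?_
    rw [intervalIntegral.integral_const_mul, intervalIntegral.integral_finsetSum]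
    · simp only [intervalIntegral.integral_mul_const, Finset.mul_sum]
      refine Finset.sum_congr rfl fun j _ => ?_
      ring
    · intro j _
      exact ((hZ i j).mul continuous_const).intervalIntegrable _ _
  · intro i _
    exact (continuous_const.mul
      (continuous_finsetSum _ fun j _ => (hZ i j).mul continuous_const)).intervalIntegrable _ _

/-- Real part of a normalised interval integral. -/
theorem re_inv_two_pi_mul_integral (F : ℝ → ℂ) (hF : Continuous F) :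
    ((2 * Real.pi : ℂ)⁻¹ * ∫ θ in (0:ℝ)..2 * Real.pi, F θ).re
      = (2 * Real.pi)⁻¹ * ∫ θ in (0:ℝ)..2 * Real.pi, (F θ).re := by
  have hc : (2 * Real.pi : ℂ)⁻¹ = (((2 * Real.pi)⁻¹ : ℝ) : ℂ) := by push_cast; rfl
  rw [hc, Complex.re_ofReal_mul]
  congr 1
  exact (intervalIntegral.intervalIntegral_re (𝕜 := ℂ) (hF.intervalIntegrable _ _)).symm

/-- **Package E.** Norm bound for a positive matrix density of mean one. -/
theorem norm_le_of_psd_density {n m : ℕ} (Λ : ℝ → Matrix (Fin n) (Fin n) ℂ) (hΛc : Continuous Λ)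
    (hΛ : ∀ θ, (Λ θ).PosSemidef)
    (hmean : ∀ a b, (2 * Real.pi : ℂ)⁻¹ * (∫ θ in (0:ℝ)..2 * Real.pi, Λ θ a b)
        = (1 : Matrix (Fin n) (Fin n) ℂ) a b)
    (B : ℝ → Matrix (Fin m) (Fin m) ℂ) (hB : Continuous B) (M : ℝ)
    (hM : ∀ θ, ‖Matrix.toEuclideanCLM (n := Fin m) (𝕜 := ℂ) (B θ)‖ ≤ M)
    (X : Matrix (Fin n × Fin m) (Fin n × Fin m) ℂ)
    (hX : ∀ a b c d, X (a, c) (b, d)
        = (2 * Real.pi : ℂ)⁻¹ * ∫ θ in (0:ℝ)..2 * Real.pi, Λ θ a b * B θ c d) :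
    ‖Matrix.toEuclideanCLM (n := Fin n × Fin m) (𝕜 := ℂ) X‖ ≤ M := by
  have hM0 : 0 ≤ M := le_trans (norm_nonneg _) (hM 0)
  have hpi : (0:ℝ) ≤ 2 * Real.pi := by positivity
  have hΛe : ∀ a b, Continuous fun θ => Λ θ a b := fun a b => hΛc.matrix_elem a b
  have hBe : ∀ c d, Continuous fun θ => B θ c d := fun c d => hB.matrix_elem c d
  have hZ : ∀ i j : Fin n × Fin m, Continuous fun θ => (Λ θ ⊗ₖ B θ) i j := by
    intro i j
    simp only [Matrix.kroneckerMap_apply]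
    exact (hΛe _ _).mul (hBe _ _)
  have hZ1 : ∀ i j : Fin n × Fin m,
      Continuous fun θ => (Λ θ ⊗ₖ (1 : Matrix (Fin m) (Fin m) ℂ)) i j := by
    intro i j
    simp only [Matrix.kroneckerMap_apply]
    exact (hΛe _ _).mul continuous_const
  have hX' : ∀ i j : Fin n × Fin m, X i j
      = (2 * Real.pi : ℂ)⁻¹ * ∫ θ in (0:ℝ)..2 * Real.pi, (Λ θ ⊗ₖ B θ) i j := by
    rintro ⟨a, c⟩ ⟨b, d⟩
    rw [hX]
    rfl
  have h1' : ∀ i j : Fin n × Fin m, (1 : Matrix (Fin n × Fin m) (Fin n × Fin m) ℂ) i j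
      = (2 * Real.pi : ℂ)⁻¹ * ∫ θ in (0:ℝ)..2 * Real.pi,
          (Λ θ ⊗ₖ (1 : Matrix (Fin m) (Fin m) ℂ)) i j := by
    rintro ⟨a, c⟩ ⟨b, d⟩
    simp only [Matrix.kroneckerMap_apply]
    rw [intervalIntegral.integral_mul_const, ← mul_assoc, hmean, ← Matrix.one_kronecker_one]
    rfl
  -- the polarised bound
  have key : ∀ x y : EuclideanSpace ℂ (Fin n × Fin m),
      (inner ℂ y (Matrix.toEuclideanCLM (n := Fin n × Fin m) (𝕜 := ℂ) X x)).re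
        ≤ M / 2 * (‖x‖ ^ 2 + ‖y‖ ^ 2) := by
    intro x y
    have hF := continuous_star_dotProduct_mulVec _ hZ x.ofLp y.ofLp
    have hGx := continuous_star_dotProduct_mulVec _ hZ1 x.ofLp x.ofLp
    have hGy := continuous_star_dotProduct_mulVec _ hZ1 y.ofLp y.ofLp
    have hx1 := star_dotProduct_mulVec_integral _ hZ1 1 _ _ _ h1' x.ofLp x.ofLp
    have hy1 := star_dotProduct_mulVec_integral _ hZ1 1 _ _ _ h1' y.ofLp y.ofLp
    rw [Matrix.one_mulVec] at hx1 hy1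
    have hx2 : ‖x‖ ^ 2 = (2 * Real.pi)⁻¹ * ∫ θ in (0:ℝ)..2 * Real.pi,
        (star x.ofLp ⬝ᵥ ((Λ θ ⊗ₖ (1 : Matrix (Fin m) (Fin m) ℂ)) *ᵥ x.ofLp)).re := by
      rw [← re_inv_two_pi_mul_integral _ hGx, ← hx1, star_dotProduct_self_re]
    have hy2 : ‖y‖ ^ 2 = (2 * Real.pi)⁻¹ * ∫ θ in (0:ℝ)..2 * Real.pi,
        (star y.ofLp ⬝ᵥ ((Λ θ ⊗ₖ (1 : Matrix (Fin m) (Fin m) ℂ)) *ᵥ y.ofLp)).re := by
      rw [← re_inv_two_pi_mul_integral _ hGy, ← hy1, star_dotProduct_self_re]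
    rw [inner_toEuclideanCLM_eq, star_dotProduct_mulVec_integral _ hZ X _ _ _ hX',
      re_inv_two_pi_mul_integral _ hF, hx2, hy2]
    have hmono : (∫ θ in (0:ℝ)..2 * Real.pi, (star y.ofLp ⬝ᵥ ((Λ θ ⊗ₖ B θ) *ᵥ x.ofLp)).re)
        ≤ ∫ θ in (0:ℝ)..2 * Real.pi, M / 2 *
          ((star x.ofLp ⬝ᵥ ((Λ θ ⊗ₖ (1 : Matrix (Fin m) (Fin m) ℂ)) *ᵥ x.ofLp)).re
            + (star y.ofLp ⬝ᵥ ((Λ θ ⊗ₖ (1 : Matrix (Fin m) (Fin m) ℂ)) *ᵥ y.ofLp)).re) := by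
      refine intervalIntegral.integral_mono_on hpi ?_ ?_ ?_
      · exact (Complex.continuous_re.comp hF).intervalIntegrable _ _
      · exact (continuous_const.mul ((Complex.continuous_re.comp hGx).add
          (Complex.continuous_re.comp hGy))).intervalIntegrable _ _
      · intro θ _
        exact re_kronecker_le (Λ θ) (hΛ θ) (B θ) M (hM θ) x.ofLp y.ofLp
    have hGxi : IntervalIntegrable (fun θ : ℝ =>
        (star x.ofLp ⬝ᵥ ((Λ θ ⊗ₖ (1 : Matrix (Fin m) (Fin m) ℂ)) *ᵥ x.ofLp)).re)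
        MeasureTheory.volume 0 (2 * Real.pi) :=
      (Complex.continuous_re.comp hGx).intervalIntegrable _ _
    have hGyi : IntervalIntegrable (fun θ : ℝ =>
        (star y.ofLp ⬝ᵥ ((Λ θ ⊗ₖ (1 : Matrix (Fin m) (Fin m) ℂ)) *ᵥ y.ofLp)).re)
        MeasureTheory.volume 0 (2 * Real.pi) :=
      (Complex.continuous_re.comp hGy).intervalIntegrable _ _
    rw [intervalIntegral.integral_const_mul, intervalIntegral.integral_add hGxi hGyi] at hmono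
    have hpos : (0:ℝ) ≤ (2 * Real.pi)⁻¹ := by positivity
    have := mul_le_mul_of_nonneg_left hmono hpos
    linarith
  -- from the polarised bound to the operator norm
  refine ContinuousLinearMap.opNorm_le_bound _ hM0 fun x => ?_
  by_cases hTx : Matrix.toEuclideanCLM (n := Fin n × Fin m) (𝕜 := ℂ) X x = 0
  · rw [hTx, norm_zero]
    exact mul_nonneg hM0 (norm_nonneg _)
  have hx : x ≠ 0 := by
    rintro rfl
    exact hTx (map_zero _)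
  have hTxp : 0 < ‖Matrix.toEuclideanCLM (n := Fin n × Fin m) (𝕜 := ℂ) X x‖ :=
    norm_pos_iff.mpr hTx
  have hxp : 0 < ‖x‖ := norm_pos_iff.mpr hx
  have h := key x (((‖x‖ / ‖Matrix.toEuclideanCLM (n := Fin n × Fin m) (𝕜 := ℂ) X x‖ : ℝ) : ℂ)
    • Matrix.toEuclideanCLM (n := Fin n × Fin m) (𝕜 := ℂ) X x)
  have hself : (inner ℂ (Matrix.toEuclideanCLM (n := Fin n × Fin m) (𝕜 := ℂ) X x)
      (Matrix.toEuclideanCLM (n := Fin n × Fin m) (𝕜 := ℂ) X x)).re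
      = ‖Matrix.toEuclideanCLM (n := Fin n × Fin m) (𝕜 := ℂ) X x‖ ^ 2 :=
    inner_self_eq_norm_sq (𝕜 := ℂ) _
  rw [inner_smul_left, norm_smul, Complex.conj_ofReal, Complex.re_ofReal_mul,
    hself, Complex.norm_real, Real.norm_of_nonneg (by positivity)] at h
  have e1 : ‖x‖ / ‖Matrix.toEuclideanCLM (n := Fin n × Fin m) (𝕜 := ℂ) X x‖
      * ‖Matrix.toEuclideanCLM (n := Fin n × Fin m) (𝕜 := ℂ) X x‖ = ‖x‖ := by
    field_simp
  have e2 : ‖x‖ / ‖Matrix.toEuclideanCLM (n := Fin n × Fin m) (𝕜 := ℂ) X x‖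
      * ‖Matrix.toEuclideanCLM (n := Fin n × Fin m) (𝕜 := ℂ) X x‖ ^ 2
      = ‖x‖ * ‖Matrix.toEuclideanCLM (n := Fin n × Fin m) (𝕜 := ℂ) X x‖ := by
    field_simp
  rw [e1, e2] at h
  have h' : ‖x‖ * ‖Matrix.toEuclideanCLM (n := Fin n × Fin m) (𝕜 := ℂ) X x‖
      ≤ ‖x‖ * (M * ‖x‖) := by
    nlinarith
  exact le_of_mul_le_mul_left h' hxp

end Crest.Agent.S0181.Helper6
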