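import Mathlib

/-!
# S0181 — package B (helper79): change of variables along a monotone unimodular loop

If `γ' = i ω γ` with `ω ≥ 0` continuous, `|γ| = 1`, `γ` is `2π`-periodic and injective on
`[0, 2π)`, then `∫₀^{2π} ω(θ) F(γ θ) dθ = ∫₀^{2π} F(e^{iφ}) dφ` for `F` continuous on the circle.

Proof: `Φ θ = ∫₀^θ ω` is monotone with `Φ' = ω`; `γ e^{-iΦ}` has zero derivative, so
`γ θ = γ 0 · e^{iΦ θ}`; periodicity gives `Φ (2π) ∈ 2π ℤ`, injectivity excludes `0` and `≥ 4π`;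
then substitution `φ = Φ θ` and periodicity of `φ ↦ F (e^{iφ})`.
-/

set_option autoImplicit false
open MeasureTheory

namespace Crest.Agent.S0181.Helper79

/-- The phase `Φ θ = ∫₀^θ ω`. -/
noncomputable def Phi (ω : ℝ → ℝ) (θ : ℝ) : ℝ := ∫ t in (0:ℝ)..θ, ω t

theorem Phi_zero (ω : ℝ → ℝ) : Phi ω 0 = 0 := by
  unfold Phi
  exact intervalIntegral.integral_same

theorem hasDerivAt_Phi {ω : ℝ → ℝ} (hω : Continuous ω) (θ : ℝ) :
    HasDerivAt (Phi ω) (ω θ) θ :=
  intervalIntegral.integral_hasDerivAt_right (hω.intervalIntegrable _ _)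
    (hω.stronglyMeasurableAtFilter _ _) hω.continuousAt

theorem monotone_Phi {ω : ℝ → ℝ} (hω : Continuous ω) (hω0 : ∀ θ, 0 ≤ ω θ) : Monotone (Phi ω) := by
  refine monotone_of_deriv_nonneg (fun θ => (hasDerivAt_Phi hω θ).differentiableAt) fun θ => ?_
  rw [(hasDerivAt_Phi hω θ).deriv]
  exact hω0 θ

theorem continuous_Phi {ω : ℝ → ℝ} (hω : Continuous ω) : Continuous (Phi ω) :=
  continuous_iff_continuousAt.mpr fun θ => (hasDerivAt_Phi hω θ).continuousAt

/-- `γ θ = γ 0 · e^{iΦ θ}`. -/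
theorem gamma_eq {γ : ℝ → ℂ} {ω : ℝ → ℝ} (hω : Continuous ω)
    (hγ : ∀ θ, HasDerivAt γ (Complex.I * (ω θ : ℂ) * γ θ) θ) (θ : ℝ) :
    γ θ = γ 0 * Complex.exp (Complex.I * (Phi ω θ : ℂ)) := by
  set h : ℝ → ℂ := fun θ => γ θ * Complex.exp (-(Complex.I * (Phi ω θ : ℂ))) with hh
  have hd : ∀ θ, HasDerivAt h 0 θ := by
    intro θ
    have h1 : HasDerivAt (fun θ : ℝ => ((Phi ω θ : ℝ) : ℂ)) ((ω θ : ℝ) : ℂ) θ :=
      (hasDerivAt_Phi hω θ).ofReal_comp
    have h2 : HasDerivAt (fun θ : ℝ => -(Complex.I * (Phi ω θ : ℂ)))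
        (-(Complex.I * (ω θ : ℂ))) θ := (h1.const_mul Complex.I).neg
    have h3 := h2.cexp
    have h4 := (hγ θ).mul h3
    have h5 : Complex.I * (ω θ : ℂ) * γ θ * Complex.exp (-(Complex.I * (Phi ω θ : ℂ))) +
        γ θ * (Complex.exp (-(Complex.I * (Phi ω θ : ℂ))) * -(Complex.I * (ω θ : ℂ))) = 0 := by
      ring
    rw [h5] at h4
    exact h4
  have hconst : h θ = h 0 :=
    is_const_of_deriv_eq_zero (fun θ => (hd θ).differentiableAt) (fun θ => (hd θ).deriv) θ 0
  have h0 : h 0 = γ 0 := by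
    simp [hh, Phi_zero]
  have hmul : γ θ = h θ * Complex.exp (Complex.I * (Phi ω θ : ℂ)) := by
    simp only [hh]
    rw [mul_assoc, ← Complex.exp_add]
    simp
  rw [hmul, hconst, h0]

/-- Package B. -/
theorem wind_change_of_variables (γ : ℝ → ℂ) (ω : ℝ → ℝ) (hω : Continuous ω) (hω0 : ∀ θ, 0 ≤ ω θ)
    (hγ : ∀ θ, HasDerivAt γ (Complex.I * (ω θ : ℂ) * γ θ) θ) (hnorm : ∀ θ, ‖γ θ‖ = 1)
    (hper : Function.Periodic γ (2 * Real.pi)) (hinj : Set.InjOn γ (Set.Ico 0 (2 * Real.pi)))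
    (F : ℂ → ℂ) (hF : ContinuousOn F (Metric.sphere 0 1)) :
    ∫ θ in (0:ℝ)..2 * Real.pi, (ω θ : ℂ) * F (γ θ) =
      ∫ φ in (0:ℝ)..2 * Real.pi, F (Complex.exp ((φ : ℂ) * Complex.I)) := by
  have hpi : 0 < 2 * Real.pi := by positivity
  have hmono := monotone_Phi hω hω0
  have hgam := gamma_eq hω hγ
  have hγ0 : γ 0 ≠ 0 := by
    intro h0
    have := hnorm 0
    rw [h0, norm_zero] at this
    exact zero_ne_one this
  have h0mem : (0:ℝ) ∈ Set.Ico 0 (2 * Real.pi) := ⟨le_refl _, hpi⟩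
  -- the total phase is an integer multiple of `2π`
  have hL : Complex.exp (Complex.I * (Phi ω (2 * Real.pi) : ℂ)) = 1 := by
    have h1 : γ (2 * Real.pi) = γ 0 := by
      have := hper 0
      rwa [zero_add] at this
    rw [hgam (2 * Real.pi)] at h1
    have h2 : γ 0 * Complex.exp (Complex.I * (Phi ω (2 * Real.pi) : ℂ)) = γ 0 * 1 := by
      rw [h1, mul_one]
    exact mul_left_cancel₀ hγ0 h2
  obtain ⟨n, hn⟩ := Complex.exp_eq_one_iff.mp hL
  have hLn : Phi ω (2 * Real.pi) = (n : ℝ) * (2 * Real.pi) := by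
    have h1 : (Phi ω (2 * Real.pi) : ℂ) = ((n : ℝ) * (2 * Real.pi) : ℝ) := by
      have hI : Complex.I ≠ 0 := Complex.I_ne_zero
      apply mul_left_cancel₀ hI
      rw [hn]
      push_cast
      ring
    exact_mod_cast h1
  have hL0 : 0 ≤ Phi ω (2 * Real.pi) := by
    have := hmono hpi.le
    rwa [Phi_zero] at this
  -- `n = 1`
  have hn1 : n = 1 := by
    have hn0 : 0 ≤ n := by
      by_contra hneg
      have hneg' : n < 0 := not_le.mp hneg
      have : (n : ℝ) ≤ -1 := by exact_mod_cast Int.le_sub_one_of_lt hneg'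
      nlinarith [Real.pi_pos]
    rcases lt_trichotomy n 1 with hlt | heq | hgt
    · -- `n = 0`: `γ` constant on `[0, 2π]`
      exfalso
      have hn' : n = 0 := by omega
      have hLz : Phi ω (2 * Real.pi) = 0 := by rw [hLn, hn']; simp
      have hpimem : Real.pi ∈ Set.Ico 0 (2 * Real.pi) :=
        ⟨Real.pi_pos.le, by linarith [Real.pi_pos]⟩
      have hΦpi : Phi ω Real.pi = 0 := by
        have h1 : Phi ω 0 ≤ Phi ω Real.pi := hmono Real.pi_pos.le
        have h2 : Phi ω Real.pi ≤ Phi ω (2 * Real.pi) := hmono (by linarith [Real.pi_pos])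
        rw [Phi_zero] at h1
        linarith
      have hγpi : γ Real.pi = γ 0 := by
        rw [hgam Real.pi, hΦpi]
        simp
      have := hinj hpimem h0mem hγpi
      exact Real.pi_pos.ne' this
    · exact heq
    · -- `n ≥ 2`: the phase passes through `2π` strictly inside
      exfalso
      have hn2 : (2:ℝ) ≤ n := by exact_mod_cast hgt
      have hmem : 2 * Real.pi ∈ Set.Icc (Phi ω 0) (Phi ω (2 * Real.pi)) := by
        rw [Phi_zero, hLn]
        constructor
        · exact hpi.le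
        · nlinarith [Real.pi_pos]
      obtain ⟨θ1, hθ1, hΦ1⟩ :=
        intermediate_value_Icc hpi.le (continuous_Phi hω).continuousOn hmem
      have hθ1ne : θ1 ≠ 2 * Real.pi := by
        intro h
        rw [h, hLn] at hΦ1
        nlinarith [Real.pi_pos]
      have hθ1mem : θ1 ∈ Set.Ico 0 (2 * Real.pi) := ⟨hθ1.1, lt_of_le_of_ne hθ1.2 hθ1ne⟩
      have hγ1 : γ θ1 = γ 0 := by
        rw [hgam θ1, hΦ1]
        have : Complex.I * ((2 * Real.pi : ℝ) : ℂ) = 2 * Real.pi * Complex.I := by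
          push_cast; ring
        rw [this, Complex.exp_two_pi_mul_I, mul_one]
      have h0 := hinj hθ1mem h0mem hγ1
      rw [h0, Phi_zero] at hΦ1
      linarith
  have hL2 : Phi ω (2 * Real.pi) = 2 * Real.pi := by
    rw [hLn, hn1]; simp
  -- substitution
  obtain ⟨φ0, hφ0⟩ := (Complex.norm_eq_one_iff (γ 0)).mp (hnorm 0)
  set g : ℝ → ℂ := fun φ => F (γ 0 * Complex.exp (Complex.I * (φ : ℂ))) with hg
  have hgc : Continuous g := by
    refine hF.comp_continuous (by fun_prop) fun φ => ?_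
    rw [mem_sphere_zero_iff_norm, norm_mul, hnorm 0, one_mul]
    have : Complex.I * (φ : ℂ) = (φ : ℂ) * Complex.I := mul_comm _ _
    rw [this, Complex.norm_exp_ofReal_mul_I]
  have hstep1 : ∫ θ in (0:ℝ)..2 * Real.pi, (ω θ : ℂ) * F (γ θ) =
      ∫ θ in (0:ℝ)..2 * Real.pi, ω θ • (g ∘ Phi ω) θ := by
    refine intervalIntegral.integral_congr fun θ _ => ?_
    simp only [hg, Function.comp_apply, Complex.real_smul]
    rw [← hgam θ]
  have hstep2 : ∫ θ in (0:ℝ)..2 * Real.pi, ω θ • (g ∘ Phi ω) θ =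
      ∫ φ in Phi ω 0..Phi ω (2 * Real.pi), g φ :=
    intervalIntegral.integral_deriv_smul_comp (fun θ _ => hasDerivAt_Phi hω θ)
      hω.continuousOn hgc
  rw [hstep1, hstep2, Phi_zero, hL2]
  -- periodicity
  set G0 : ℝ → ℂ := fun φ => F (Complex.exp ((φ : ℂ) * Complex.I)) with hG0
  have hG0per : Function.Periodic G0 (2 * Real.pi) := by
    intro φ
    simp only [hG0]
    congr 1
    push_cast
    rw [add_mul, Complex.exp_add, Complex.exp_two_pi_mul_I, mul_one]
  have hgG : ∀ φ, g φ = G0 (φ + φ0) := by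
    intro φ
    simp only [hg, hG0]
    congr 1
    rw [← hφ0, ← Complex.exp_add]
    congr 1
    push_cast
    ring
  have h3 : ∫ φ in (0:ℝ)..2 * Real.pi, g φ = ∫ φ in (0:ℝ)..2 * Real.pi, G0 (φ + φ0) :=
    intervalIntegral.integral_congr fun φ _ => hgG φ
  rw [h3, intervalIntegral.integral_comp_add_right, zero_add]
  have h4 := hG0per.intervalIntegral_add_eq φ0 0
  rw [zero_add] at h4
  rw [add_comm (2 * Real.pi) φ0]
  exact h4

end Crest.Agent.S0181.Helper79
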