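import Mathlib

/-!
# S0181 — package H (helper79, independent copy): boundary behaviour of `G` and `f`

* `boundary_topology` (H1): `G` maps the unit circle into `closure Ω \ Ω`; `|f| = 1` on
  `closure Ω \ Ω`; `|f| ≥ 1` on `U \ Ω`.
* `boundary_data` (H2): the loop `γ θ = f (G (e^{iθ}))` is unimodular, injective on `[0, 2π)` and
  satisfies `γ' = i ω γ` with `ω = Im (γ' · conj γ)` continuous, `2π`-periodic and `≥ 0`
  (`ρ ↦ |f (G (ρ t))|²` has a one-sided minimum at `ρ = 1`).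

Both are the exact `Spec` statements of `origin/helper78 f5d5ff0`.  Mathlib only.
-/

set_option autoImplicit false
open Filter Topology

namespace Crest.Agent.S0181.Helper79

/-- A one-sided (right) local minimum forces a nonnegative derivative. -/
theorem deriv_nonneg_of_right_min {h : ℝ → ℝ} {h' x : ℝ} (hd : HasDerivAt h h' x)
    (hmin : ∀ᶠ s in 𝓝[>] (0:ℝ), h x ≤ h (x + s)) : 0 ≤ h' := by
  have ht := hd.tendsto_slope_zero_right
  refine ge_of_tendsto ht ?_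
  filter_upwards [hmin, self_mem_nhdsWithin] with s hs hpos
  have hpos' : (0:ℝ) < s := hpos
  simp only [smul_eq_mul]
  exact mul_nonneg (inv_nonneg.mpr hpos'.le) (sub_nonneg.mpr hs)

set_option linter.unusedVariables false in
/-- H1: topology. -/
theorem boundary_topology (Ω U : Set ℂ) (hΩ₁ : IsOpen Ω) (hU : IsOpen U) (hΩU : closure Ω ⊆ U)
    (f : ℂ → ℂ) (hf₁ : DifferentiableOn ℂ f U) (hf₂ : Set.InjOn f U)
    (hf₃ : f '' Ω = Metric.ball 0 1)
    (G : ℂ → ℂ) (r : ℝ) (hr₁ : 0 < r) (hr₂ : r < 1)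
    (hG₁ : DifferentiableOn ℂ G {t : ℂ | r < ‖t‖}) (hG₂ : Set.InjOn G {t : ℂ | r < ‖t‖})
    (hG₃ : G '' {t : ℂ | 1 < ‖t‖} = (closure Ω)ᶜ) :
    (∀ t : ℂ, ‖t‖ = 1 → G t ∈ closure Ω ∧ G t ∉ Ω) ∧
    (∀ z ∈ closure Ω, z ∉ Ω → ‖f z‖ = 1) ∧ (∀ z ∈ U, z ∉ Ω → 1 ≤ ‖f z‖) := by
  have hA : IsOpen {t : ℂ | r < ‖t‖} := isOpen_lt continuous_const continuous_norm
  have h3 : ∀ z ∈ U, z ∉ Ω → 1 ≤ ‖f z‖ := by
    intro z hzU hzΩ
    by_contra hlt
    have hlt' : ‖f z‖ < 1 := not_le.mp hlt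
    have hmem : f z ∈ Metric.ball (0:ℂ) 1 := by
      rw [Metric.mem_ball, dist_zero_right]; exact hlt'
    rw [← hf₃] at hmem
    obtain ⟨z', hz', hfz⟩ := hmem
    have hzz : z' = z := hf₂ (hΩU (subset_closure hz')) hzU hfz
    exact hzΩ (hzz ▸ hz')
  refine ⟨?_, ?_, h3⟩
  · intro t ht
    have htA : t ∈ {t : ℂ | r < ‖t‖} := by
      show r < ‖t‖
      rw [ht]; exact hr₂
    have hcl : G t ∈ closure Ω := by
      by_contra hnot
      have hmem : G t ∈ (closure Ω)ᶜ := hnot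
      rw [← hG₃] at hmem
      obtain ⟨s, hs, hGs⟩ := hmem
      have hs' : 1 < ‖s‖ := hs
      have hsA : s ∈ {t : ℂ | r < ‖t‖} := lt_trans hr₂ hs'
      have hst : s = t := hG₂ hsA htA hGs
      rw [hst, ht] at hs'
      exact lt_irrefl _ hs'
    refine ⟨hcl, ?_⟩
    intro hΩ
    have hGc : ContinuousAt G t := (hG₁.differentiableAt (hA.mem_nhds htA)).continuousAt
    have hev : G ⁻¹' Ω ∈ 𝓝 t := hGc.preimage_mem_nhds (hΩ₁.mem_nhds hΩ)
    have hset : {s : ℂ | 1 < ‖s‖} = (Metric.closedBall (0:ℂ) 1)ᶜ := by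
      ext s
      simp [Metric.mem_closedBall, dist_zero_right]
    have hcl' : t ∈ closure {s : ℂ | 1 < ‖s‖} := by
      rw [hset, closure_compl, interior_closedBall (0:ℂ) one_ne_zero]
      simp [Metric.mem_ball, dist_zero_right, ht]
    obtain ⟨s, hsG, hs1⟩ := (mem_closure_iff_nhds.mp hcl') _ hev
    have hmem : G s ∈ (closure Ω)ᶜ := by
      rw [← hG₃]; exact Set.mem_image_of_mem G hs1
    exact hmem (subset_closure hsG)
  · intro z hz hzΩ
    have hzU := hΩU hz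
    refine le_antisymm ?_ (h3 z hzU hzΩ)
    have hfc : ContinuousWithinAt f Ω z :=
      (hf₁.continuousOn z hzU).mono (subset_closure.trans hΩU)
    have hmem : f z ∈ closure (f '' Ω) := hfc.mem_closure_image hz
    rw [hf₃, closure_ball (0:ℂ) one_ne_zero, Metric.mem_closedBall, dist_zero_right] at hmem
    exact hmem

/-- H2: the angular speed `ω` of `θ ↦ f (G (e^{iθ}))`. -/
theorem boundary_data (Ω U : Set ℂ) (hΩ₁ : IsOpen Ω) (hU : IsOpen U) (hΩU : closure Ω ⊆ U)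
    (f : ℂ → ℂ) (hf₁ : DifferentiableOn ℂ f U) (hf₂ : Set.InjOn f U)
    (hf₃ : f '' Ω = Metric.ball 0 1)
    (G : ℂ → ℂ) (r : ℝ) (hr₁ : 0 < r) (hr₂ : r < 1)
    (hG₁ : DifferentiableOn ℂ G {t : ℂ | r < ‖t‖}) (hG₂ : Set.InjOn G {t : ℂ | r < ‖t‖})
    (hG₃ : G '' {t : ℂ | 1 < ‖t‖} = (closure Ω)ᶜ) :
    ∃ ω : ℝ → ℝ, Continuous ω ∧ (∀ θ, 0 ≤ ω θ) ∧ Function.Periodic ω (2 * Real.pi) ∧
      (∀ θ : ℝ, G (Complex.exp ((θ : ℂ) * Complex.I)) ∈ closure Ω) ∧
      (∀ θ : ℝ, ‖f (G (Complex.exp ((θ : ℂ) * Complex.I)))‖ = 1) ∧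
      (∀ θ : ℝ, HasDerivAt (fun τ : ℝ => f (G (Complex.exp ((τ : ℂ) * Complex.I))))
          (Complex.I * (ω θ : ℂ) * f (G (Complex.exp ((θ : ℂ) * Complex.I)))) θ) ∧
      Set.InjOn (fun τ : ℝ => f (G (Complex.exp ((τ : ℂ) * Complex.I))))
        (Set.Ico 0 (2 * Real.pi)) := by
  obtain ⟨hb1, hb2, hb3⟩ :=
    boundary_topology Ω U hΩ₁ hU hΩU f hf₁ hf₂ hf₃ G r hr₁ hr₂ hG₁ hG₂ hG₃
  have hA : IsOpen {t : ℂ | r < ‖t‖} := isOpen_lt continuous_const continuous_norm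
  set V : Set ℂ := {t : ℂ | r < ‖t‖} ∩ G ⁻¹' U with hVdef
  have hV : IsOpen V := hG₁.continuousOn.isOpen_inter_preimage hA hU
  set Ψ : ℂ → ℂ := fun t => f (G t) with hΨdef
  have hΨ : DifferentiableOn ℂ Ψ V :=
    hf₁.comp (hG₁.mono Set.inter_subset_left) (fun t ht => ht.2)
  have hΨ' : ContinuousOn (deriv Ψ) V := (hΨ.deriv hV).continuousOn
  set e : ℝ → ℂ := fun θ => Complex.exp ((θ : ℂ) * Complex.I) with hedef
  have he_norm : ∀ θ, ‖e θ‖ = 1 := fun θ => Complex.norm_exp_ofReal_mul_I θ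
  have he_cont : Continuous e := by
    simp only [hedef]
    fun_prop
  have heA : ∀ θ, e θ ∈ {t : ℂ | r < ‖t‖} := by
    intro θ
    show r < ‖e θ‖
    rw [he_norm θ]; exact hr₂
  have heV : ∀ θ, e θ ∈ V := fun θ => ⟨heA θ, hΩU (hb1 _ (he_norm θ)).1⟩
  have heD : ∀ θ, HasDerivAt e (e θ * Complex.I) θ := by
    intro θ
    have h1 : HasDerivAt (fun τ : ℝ => (τ : ℂ) * Complex.I) Complex.I θ := by
      have := ((hasDerivAt_id θ).ofReal_comp).mul_const Complex.I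
      simpa using this
    exact h1.cexp
  have hΨD : ∀ t ∈ V, HasDerivAt Ψ (deriv Ψ t) t :=
    fun t ht => (hΨ.differentiableAt (hV.mem_nhds ht)).hasDerivAt
  have hγD : ∀ θ, HasDerivAt (fun τ : ℝ => Ψ (e τ)) (deriv Ψ (e θ) * (e θ * Complex.I)) θ :=
    fun θ => (hΨD (e θ) (heV θ)).comp θ (heD θ)
  have hγnorm : ∀ θ, ‖Ψ (e θ)‖ = 1 :=
    fun θ => hb2 _ (hb1 _ (he_norm θ)).1 (hb1 _ (he_norm θ)).2
  -- the real part of `γ' · conj γ` vanishes
  have hre : ∀ θ, (deriv Ψ (e θ) * (e θ * Complex.I) * (starRingEnd ℂ) (Ψ (e θ))).re = 0 := by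
    intro θ
    have h1 := (hγD θ).norm_sq
    have h2 : (fun τ : ℝ => ‖Ψ (e τ)‖ ^ 2) = fun _ => (1:ℝ) := by
      funext τ; rw [hγnorm τ]; norm_num
    rw [h2] at h1
    have h3 := h1.unique (hasDerivAt_const θ (1:ℝ))
    rw [Complex.inner] at h3
    linarith
  refine ⟨fun θ => (deriv Ψ (e θ) * (e θ * Complex.I) * (starRingEnd ℂ) (Ψ (e θ))).im,
    ?_, ?_, ?_, ?_, ?_, ?_, ?_⟩
  · -- continuity
    refine Complex.continuous_im.comp ?_
    exact ((hΨ'.comp_continuous he_cont heV).mul (he_cont.mul continuous_const)).mul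
      (Complex.continuous_conj.comp (hΨ.continuousOn.comp_continuous he_cont heV))
  · -- nonnegativity
    intro θ
    show 0 ≤ (deriv Ψ (e θ) * (e θ * Complex.I) * (starRingEnd ℂ) (Ψ (e θ))).im
    set t : ℂ := e θ with ht
    have hline : HasDerivAt (fun ρ : ℝ => (ρ : ℂ) * t) t (1:ℝ) := by
      have := ((hasDerivAt_id (1:ℝ)).ofReal_comp).mul_const t
      simpa using this
    have hΨt : HasDerivAt Ψ (deriv Ψ t) (((1:ℝ) : ℂ) * t) := by
      have : ((1:ℝ) : ℂ) * t = t := by simp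
      rw [this]; exact hΨD t (heV θ)
    have hcomp : HasDerivAt (fun ρ : ℝ => Ψ ((ρ : ℂ) * t)) (deriv Ψ t * t) (1:ℝ) :=
      HasDerivAt.comp (h₂ := Ψ) (h := fun ρ : ℝ => (ρ : ℂ) * t) (1:ℝ) hΨt hline
    have hsq := hcomp.norm_sq
    have hmin : ∀ᶠ s in 𝓝[>] (0:ℝ),
        ‖Ψ ((((1:ℝ)) : ℂ) * t)‖ ^ 2 ≤ ‖Ψ ((((1:ℝ) + s : ℝ) : ℂ) * t)‖ ^ 2 := by
      have hcont : Continuous fun s : ℝ => (((1:ℝ) + s : ℝ) : ℂ) * t := by fun_prop
      have hmem : ∀ᶠ s in 𝓝 (0:ℝ), (((1:ℝ) + s : ℝ) : ℂ) * t ∈ V := by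
        refine (hcont.tendsto 0).eventually (hV.mem_nhds ?_)
        have : (((1:ℝ) + 0 : ℝ) : ℂ) * t = t := by simp
        rw [this]; exact heV θ
      filter_upwards [nhdsWithin_le_nhds hmem, self_mem_nhdsWithin] with s hsV hspos
      have hspos' : (0:ℝ) < s := hspos
      have h1 : ‖Ψ ((((1:ℝ)) : ℂ) * t)‖ = 1 := by
        have : ((1:ℝ) : ℂ) * t = t := by simp
        rw [this]; exact hγnorm θ
      have hnorm : ‖(((1:ℝ) + s : ℝ) : ℂ) * t‖ = 1 + s := by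
        rw [norm_mul, ht, he_norm θ, mul_one, Complex.norm_real, Real.norm_eq_abs,
          abs_of_pos (by linarith)]
      have hout : G ((((1:ℝ) + s : ℝ) : ℂ) * t) ∈ (closure Ω)ᶜ := by
        rw [← hG₃]
        refine Set.mem_image_of_mem G ?_
        show 1 < ‖(((1:ℝ) + s : ℝ) : ℂ) * t‖
        rw [hnorm]; linarith
      have hge : 1 ≤ ‖Ψ ((((1:ℝ) + s : ℝ) : ℂ) * t)‖ :=
        hb3 _ hsV.2 (fun hin => hout (subset_closure hin))
      rw [h1]
      nlinarith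
    have hnn := deriv_nonneg_of_right_min hsq hmin
    rw [Complex.inner] at hnn
    have hone : ((1:ℝ) : ℂ) * t = t := by simp
    rw [hone] at hnn
    have hrew : deriv Ψ t * (t * Complex.I) * (starRingEnd ℂ) (Ψ t) =
        (deriv Ψ t * t * (starRingEnd ℂ) (Ψ t)) * Complex.I := by ring
    rw [hrew, Complex.mul_I_im]
    linarith
  · -- periodicity
    intro θ
    have hper : e (θ + 2 * Real.pi) = e θ := by
      simp only [hedef]
      push_cast
      rw [add_mul, Complex.exp_add, Complex.exp_two_pi_mul_I, mul_one]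
    show (deriv Ψ (e (θ + 2 * Real.pi)) * (e (θ + 2 * Real.pi) * Complex.I) *
        (starRingEnd ℂ) (Ψ (e (θ + 2 * Real.pi)))).im = _
    rw [hper]
  · exact fun θ => (hb1 _ (he_norm θ)).1
  · exact hγnorm
  · -- the derivative
    intro θ
    show HasDerivAt (fun τ : ℝ => Ψ (e τ))
      (Complex.I * (((deriv Ψ (e θ) * (e θ * Complex.I) *
          (starRingEnd ℂ) (Ψ (e θ))).im : ℝ) : ℂ) * Ψ (e θ)) θ
    have hD := hγD θ
    have hc : deriv Ψ (e θ) * (e θ * Complex.I) * (starRingEnd ℂ) (Ψ (e θ)) =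
        Complex.I * (((deriv Ψ (e θ) * (e θ * Complex.I) *
          (starRingEnd ℂ) (Ψ (e θ))).im : ℝ) : ℂ) := by
      apply Complex.ext
      · rw [hre θ]; simp
      · simp
    have hunit : (starRingEnd ℂ) (Ψ (e θ)) * Ψ (e θ) = 1 := by
      rw [Complex.conj_mul', hγnorm θ]; norm_num
    have hfinal : deriv Ψ (e θ) * (e θ * Complex.I) =
        Complex.I * (((deriv Ψ (e θ) * (e θ * Complex.I) *
          (starRingEnd ℂ) (Ψ (e θ))).im : ℝ) : ℂ) * Ψ (e θ) := by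
      rw [← hc, mul_assoc _ ((starRingEnd ℂ) (Ψ (e θ))), hunit, mul_one]
    rw [← hfinal]
    exact hD
  · -- injectivity
    intro τ1 h1 τ2 h2 heq
    have hG12 : G (e τ1) = G (e τ2) := hf₂ (heV τ1).2 (heV τ2).2 heq
    have he12 : e τ1 = e τ2 := hG₂ (heA τ1) (heA τ2) hG12
    obtain ⟨n, hn⟩ := Complex.exp_eq_exp_iff_exists_int.mp he12
    have hreal : τ1 = τ2 + (n : ℝ) * (2 * Real.pi) := by
      have hI : Complex.I ≠ 0 := Complex.I_ne_zero
      have h3 : ((τ1 : ℝ) : ℂ) = ((τ2 + (n : ℝ) * (2 * Real.pi) : ℝ) : ℂ) := by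
        apply mul_right_cancel₀ hI
        rw [hn]
        push_cast
        ring
      exact_mod_cast h3
    have hn0 : n = 0 := by
      have hpi := Real.pi_pos
      have hlt1 : (n : ℝ) * (2 * Real.pi) < 2 * Real.pi := by linarith [h1.2, h2.1]
      have hlt2 : -(2 * Real.pi) < (n : ℝ) * (2 * Real.pi) := by linarith [h1.1, h2.2]
      have hn1 : (n : ℝ) < 1 := by
        by_contra hcon
        have : (1:ℝ) ≤ n := not_lt.mp hcon
        nlinarith
      have hn2 : (-1 : ℝ) < n := by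
        by_contra hcon
        have : (n : ℝ) ≤ -1 := not_lt.mp hcon
        nlinarith
      have hn1' : n < 1 := by exact_mod_cast hn1
      have hn2' : -1 < n := by exact_mod_cast hn2
      omega
    rw [hreal, hn0]
    simp

end Crest.Agent.S0181.Helper79
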