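import Mathlib
import Crest.Prelude.Def_NumRangeMetric
import Crest.Agent.Lib.S0181.Helper78Defs
import Crest.Agent.Lib.S0181.Helper79B
import Crest.Agent.Lib.S0181.Helper46C
import Crest.Agent.Lib.S0181.Helper43I
import Crest.Agent.Lib.S0181.Helper40J
import Crest.Agent.Lib.S0181.Helper6A
import Crest.Agent.Lib.S0181.Helper16D
import Crest.Agent.Lib.S0181.Helper13F
import Crest.Agent.Lib.S0181.Helper55G
import Crest.Agent.Lib.S0181.Helper79H
import Crest.Agent.Lib.S0181.Helper28D
import Crest.Agent.Lib.S0181.Helper6E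

/-!
# S0181 (lone statement) — assembly

`main` is the statement of S0181, assembled from the work packages A-J of the S0181 swarm.
-/

set_option autoImplicit false

namespace Crest.Agent.S0181

open scoped ComplexOrder
open Matrix Crest.AnalysisR.NumRange

/-- `θ ↦ e^{iθ}` is `2π`-periodic. -/
theorem cexp_periodic (θ : ℝ) :
    Complex.exp (((θ + 2 * Real.pi : ℝ) : ℂ) * Complex.I) = Complex.exp ((θ : ℂ) * Complex.I) := by
  have h : (((θ + 2 * Real.pi : ℝ) : ℂ) * Complex.I) = (θ : ℂ) * Complex.I + 2 * Real.pi * Complex.I := by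
    push_cast; ring
  rw [h, Complex.exp_periodic]

/-- Entries of a scalar multiple. -/
theorem smul_entry {n : ℕ} (c : ℂ) (K : Matrix (Fin n) (Fin n) ℂ) (a b : Fin n) :
    (c • K) a b = c * K a b := by
  simp [Matrix.smul_apply]

/-- The matrix Poisson formula (assembly of the D packages). -/
theorem poisson_formula {n : ℕ} (C : Matrix (Fin n) (Fin n) ℂ)
    (hspec : ∀ u : ℂ, 1 ≤ ‖u‖ → (u • (1 : Matrix (Fin n) (Fin n) ℂ) - C).det ≠ 0)
    {R₀ : ℝ} (hR₀ : 1 < R₀) {w k : ℂ → ℂ} (hw : DifferentiableOn ℂ w (Metric.ball 0 R₀))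
    (hk : DifferentiableOn ℂ k (Metric.ball 0 R₀)) (W : Polynomial ℂ)
    (hdec : ∀ u ∈ Metric.ball (0:ℂ) R₀, w u = W.eval u + C.charpoly.eval u * k u) (a b : Fin n) :
    (2 * Real.pi : ℂ)⁻¹ * ∫ φ in (0:ℝ)..2 * Real.pi,
        Kmat C (Complex.exp ((φ : ℂ) * Complex.I)) a b * w (Complex.exp ((φ : ℂ) * Complex.I))
      = (Polynomial.aeval C W) a b :=
  Helper16.poisson_formula_of C hspec hR₀ hw W a b
    (Helper28.resolvent_integral C hspec hR₀ hw hk W hdec a b)
    (Helper28.adjoint_resolvent_integral C hspec hR₀ hw a b)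

theorem main
    (n : ℕ) (hn : 1 ≤ n) (A : Matrix (Fin n) (Fin n) ℂ)
    (Ω U : Set ℂ) (hΩ₁ : IsOpen Ω) (hΩ₂ : Bornology.IsBounded Ω) (_hΩ₃ : Convex ℝ Ω)
    (hU : IsOpen U) (hΩU : closure Ω ⊆ U)
    (f : ℂ → ℂ) (hf₁ : DifferentiableOn ℂ f U) (hf₂ : Set.InjOn f U)
    (hf₃ : f '' Ω = Metric.ball 0 1)
    (G : ℂ → ℂ) (r : ℝ) (hr₁ : 0 < r) (hr₂ : r < 1)
    (hG₁ : DifferentiableOn ℂ G {t : ℂ | r < ‖t‖}) (hG₂ : Set.InjOn G {t : ℂ | r < ‖t‖})
    (hG₃ : G '' {t : ℂ | 1 < ‖t‖} = (closure Ω)ᶜ)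
    (hA : numRange A ⊆ Ω) (p : Polynomial ℂ) (hp : AgreesOnSpectrum A f p)
    (H : Matrix (Fin n) (Fin n) ℂ) (κsq : ℝ) (hH : IsOptimalMetric (Polynomial.aeval A p) H κsq)
    (S : Matrix (Fin n) (Fin n) ℂ) (hS₁ : S.PosSemidef) (hS₂ : S * S = H) :
    ∃ Λ : ℝ → Matrix (Fin n) (Fin n) ℂ, Continuous Λ ∧ Function.Periodic Λ (2 * Real.pi) ∧
      (∀ θ, (Λ θ).PosSemidef) ∧
      (∀ a b, (2 * Real.pi : ℂ)⁻¹ * (∫ θ in (0 : ℝ)..2 * Real.pi, Λ θ a b)
        = (1 : Matrix (Fin n) (Fin n) ℂ) a b) ∧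
      ∀ (m : ℕ), 1 ≤ m → ∀ (V : Set ℂ), IsOpen V → closure Ω ⊆ V →
        ∀ v : ℂ → Matrix (Fin m) (Fin m) ℂ, (∀ c d, DifferentiableOn ℂ (fun z => v z c d) V) →
        ∀ q : Fin m → Fin m → Polynomial ℂ,
          (∀ c d, AgreesOnSpectrum A (fun z => v z c d) (q c d)) →
          (∀ a b c d, Polynomial.aeval (S * A * S⁻¹) (q c d) a b =
              (2 * Real.pi : ℂ)⁻¹ * (∫ θ in (0 : ℝ)..2 * Real.pi,
                Λ θ a b * v (G (Complex.exp ((θ : ℂ) * Complex.I))) c d)) ∧
          ∀ M : ℝ, (∀ z ∈ closure Ω, ‖Matrix.toEuclideanCLM (n := Fin m) (𝕜 := ℂ) (v z)‖ ≤ M) →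
            ‖Matrix.toEuclideanCLM (n := Fin n × Fin m) (𝕜 := ℂ)
                (Matrix.of fun (i : Fin n × Fin m) (j : Fin n × Fin m) =>
                  Polynomial.aeval A (q i.2 j.2) i.1 j.1)‖ ≤ Real.sqrt κsq * M := by
  classical
  -- the metric, the similarity and the contraction
  have hfeas : MetricFeasible (Polynomial.aeval A p) H κsq := hH.1
  obtain ⟨hSdet, hC⟩ := Helper40.metric_facts (Polynomial.aeval A p) H S κsq hfeas hS₁ hS₂
  have hH1 : (H - 1).PosSemidef := hfeas.1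
  have hH2 : ((κsq : ℂ) • (1 : Matrix (Fin n) (Fin n) ℂ) - H).PosSemidef := hfeas.2.1
  set C : Matrix (Fin n) (Fin n) ℂ := S * Polynomial.aeval A p * S⁻¹ with hCdef
  have hCeq : Polynomial.aeval (S * A * S⁻¹) p = C := Helper40.aeval_conj S A hSdet p
  have hspA : spectrum ℂ (S * A * S⁻¹) = spectrum ℂ A := Helper40.spectrum_conj S A hSdet
  -- spectral facts
  have hspΩ : ∀ μ ∈ spectrum ℂ A, μ ∈ Ω := fun μ hμ => hA (Helper40.spectrum_subset_numRange A hμ)
  have hpf0 : ∀ μ ∈ spectrum ℂ A, p.eval μ = f μ := by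
    intro μ hμ
    have h := hp μ hμ 0 (by omega)
    simpa [iteratedDeriv_zero] using h
  have hfball : ∀ μ ∈ Ω, ‖f μ‖ < 1 := by
    intro μ hμ
    have h : f μ ∈ Metric.ball (0:ℂ) 1 := hf₃ ▸ Set.mem_image_of_mem f hμ
    simpa [Metric.mem_ball, dist_zero_right] using h
  have hspC : ∀ μ ∈ spectrum ℂ C, ‖μ‖ < 1 := by
    intro μ hμ
    rw [hCdef, Helper40.spectrum_conj S (Polynomial.aeval A p) hSdet] at hμ
    obtain ⟨ν, hν, rfl⟩ := Helper40.spectrum_aeval_subset A p hμ
    show ‖p.eval ν‖ < 1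
    rw [hpf0 ν hν]
    exact hfball ν (hspΩ ν hν)
  have hdetC : ∀ u : ℂ, 1 ≤ ‖u‖ → (u • (1 : Matrix (Fin n) (Fin n) ℂ) - C).det ≠ 0 :=
    Helper40.det_ne_zero_of_spectrum C hspC
  -- the boundary curve
  obtain ⟨ω, hωc, hω0, hωper, hGcl, hγnorm, hγderiv, hγinj⟩ :=
    Helper79.boundary_data Ω U hΩ₁ hU hΩU f hf₁ hf₂ hf₃ G r hr₁ hr₂ hG₁ hG₂ hG₃
  set γ : ℝ → ℂ := fun τ : ℝ => f (G (Complex.exp ((τ : ℂ) * Complex.I))) with hγdef
  have hγc : Continuous γ := continuous_iff_continuousAt.2 fun θ => (hγderiv θ).continuousAt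
  have hγper : Function.Periodic γ (2 * Real.pi) := by
    intro θ
    show f (G (Complex.exp (((θ + 2 * Real.pi : ℝ) : ℂ) * Complex.I))) = _
    rw [cexp_periodic]
  have hγsph : ∀ θ, γ θ ∈ Metric.sphere (0:ℂ) 1 := by
    intro θ
    simpa [Metric.mem_sphere, dist_zero_right] using hγnorm θ
  have hKc : ContinuousOn (fun u : ℂ => Kmat C u) (Metric.sphere 0 1) :=
    Helper16.continuousOn_Kmat C hdetC
  have hKentry : ∀ a b : Fin n, ContinuousOn (fun u : ℂ => Kmat C u a b) (Metric.sphere 0 1) := by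
    intro a b
    exact (continuous_apply_apply a b).comp_continuousOn hKc
  -- the density
  refine ⟨fun θ => (ω θ : ℂ) • Kmat C (γ θ), ?_, ?_, ?_, ?_, ?_⟩
  · -- continuity
    exact (Complex.continuous_ofReal.comp hωc).smul (hKc.comp_continuous hγc hγsph)
  · -- periodicity
    intro θ
    show (ω (θ + 2 * Real.pi) : ℂ) • Kmat C (γ (θ + 2 * Real.pi)) = (ω θ : ℂ) • Kmat C (γ θ)
    rw [hωper θ, hγper θ]
  · -- positivity
    intro θ
    exact (Helper16.Kmat_posSemidef C hC (γ θ)).smul (by exact_mod_cast hω0 θ)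
  · -- mean
    intro a b
    have h1 : ∫ θ in (0:ℝ)..2 * Real.pi, ((ω θ : ℂ) • Kmat C (γ θ)) a b
        = ∫ φ in (0:ℝ)..2 * Real.pi, Kmat C (Complex.exp ((φ : ℂ) * Complex.I)) a b := by
      rw [← Helper79.wind_change_of_variables γ ω hωc hω0 hγderiv hγnorm hγper hγinj
        (fun u => Kmat C u a b) (hKentry a b)]
      refine intervalIntegral.integral_congr fun θ _ => ?_
      exact smul_entry _ _ a b
    have h2 := poisson_formula C hdetC (R₀ := 2) (by norm_num) (w := fun _ => 1)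
      (k := fun _ => 0) (differentiableOn_const _) (differentiableOn_const _) 1
      (by intro u _; simp) a b
    rw [h1]
    simpa using h2
  · -- the representation and the bound
    intro m hm V hV hΩV v hv q hq
    -- the holomorphic inverse of `f` on `U ∩ V`
    have hUV : IsOpen (U ∩ V) := hU.inter hV
    obtain ⟨g, hgO, hgd, hgf⟩ := Helper6.exists_holo_inverse hUV
      (hf₁.mono Set.inter_subset_left) (hf₂.mono Set.inter_subset_left)
    obtain ⟨R₀, hR₀, hball⟩ := Helper43.exists_radius Ω U V hΩ₂ hU hΩU hV hΩV f hf₁ hf₂ hf₃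
    have hΩsub : Ω ⊆ U ∩ V := fun z hz => ⟨hΩU (subset_closure hz), hΩV (subset_closure hz)⟩
    have hclsub : closure Ω ⊆ U ∩ V := fun z hz => ⟨hΩU hz, hΩV hz⟩
    have hgV : ∀ u ∈ Metric.ball (0:ℂ) R₀, g u ∈ V := by
      intro u hu
      obtain ⟨z, hz, rfl⟩ := hball hu
      rw [hgf z hz]
      exact hz.2
    have hrep : ∀ a b c d, Polynomial.aeval (S * A * S⁻¹) (q c d) a b =
        (2 * Real.pi : ℂ)⁻¹ * (∫ θ in (0 : ℝ)..2 * Real.pi,
          ((ω θ : ℂ) • Kmat C (γ θ)) a b * v (G (Complex.exp ((θ : ℂ) * Complex.I))) c d) := by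
      intro a b c d
      set w : ℂ → ℂ := fun u => v (g u) c d with hwdef
      have hw : DifferentiableOn ℂ w (Metric.ball 0 R₀) :=
        (hv c d).comp (hgd.mono hball) hgV
      have hPne : C.charpoly ≠ 0 := (Matrix.charpoly_monic C).ne_zero
      have hroots : ∀ μ, C.charpoly.IsRoot μ → μ ∈ Metric.ball (0:ℂ) R₀ := by
        intro μ hμ
        have h1 := hspC μ (Matrix.mem_spectrum_iff_isRoot_charpoly.2 hμ)
        simp only [Metric.mem_ball, dist_zero_right]
        linarith
      obtain ⟨W, k, hk, hdec⟩ := Helper46.exists_div_decomp C.charpoly hPne Metric.isOpen_ball hroots hw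
      have hP := poisson_formula C hdetC hR₀ hw hk W hdec a b
      -- functional calculus transfer
      have hfc : Polynomial.aeval (S * A * S⁻¹) (W.comp p) = Polynomial.aeval (S * A * S⁻¹) (q c d) := by
        refine Helper55.aeval_comp_eq_of_agree (S * A * S⁻¹) p (q c d) W f (fun z => v z c d) w k
          ?_ ?_ ?_ ?_ ?_ ?_ ?_ ?_
        · intro μ hμ
          rw [hspA] at hμ
          exact hf₁.analyticAt (hU.mem_nhds (hΩU (subset_closure (hspΩ μ hμ))))
        · intro μ hμ
          rw [hspA] at hμ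
          exact (hv c d).analyticAt (hV.mem_nhds (hΩV (subset_closure (hspΩ μ hμ))))
        · intro μ hμ
          rw [hspA] at hμ
          refine hw.analyticAt (Metric.isOpen_ball.mem_nhds ?_)
          have := hfball μ (hspΩ μ hμ)
          simp only [Metric.mem_ball, dist_zero_right]
          linarith
        · intro μ hμ
          rw [hspA] at hμ
          refine hk.analyticAt (Metric.isOpen_ball.mem_nhds ?_)
          have := hfball μ (hspΩ μ hμ)
          simp only [Metric.mem_ball, dist_zero_right]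
          linarith
        · intro μ hμ j hj
          rw [hspA] at hμ
          exact hp μ hμ j hj
        · intro μ hμ j hj
          rw [hspA] at hμ
          exact hq c d μ hμ j hj
        · intro μ hμ
          rw [hspA] at hμ
          filter_upwards [hUV.mem_nhds (hΩsub (hspΩ μ hμ))] with z hz
          show v (g (f z)) c d = v z c d
          rw [hgf z hz]
        · intro μ hμ
          rw [hspA] at hμ
          rw [hCeq]
          have hfμ : f μ ∈ Metric.ball (0:ℂ) R₀ := by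
            have := hfball μ (hspΩ μ hμ)
            simp only [Metric.mem_ball, dist_zero_right]
            linarith
          filter_upwards [Metric.isOpen_ball.mem_nhds hfμ] with u hu
          exact hdec u hu
      have hcomp : Polynomial.aeval (S * A * S⁻¹) (W.comp p) = Polynomial.aeval C W := by
        rw [Polynomial.aeval_comp, hCeq]
      rw [← hfc, hcomp, ← hP]
      congr 1
      -- change of variables
      have hFc : ContinuousOn (fun u : ℂ => Kmat C u a b * w u) (Metric.sphere 0 1) := by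
        refine (hKentry a b).mul (hw.continuousOn.mono ?_)
        intro u hu
        simp only [Metric.mem_sphere, dist_zero_right] at hu
        simp only [Metric.mem_ball, dist_zero_right]
        linarith
      rw [← Helper79.wind_change_of_variables γ ω hωc hω0 hγderiv hγnorm hγper hγinj
        (fun u => Kmat C u a b * w u) hFc]
      refine intervalIntegral.integral_congr fun θ _ => ?_
      show (ω θ : ℂ) * (Kmat C (γ θ) a b * v (g (γ θ)) c d)
        = ((ω θ : ℂ) • Kmat C (γ θ)) a b * v (G (Complex.exp ((θ : ℂ) * Complex.I))) c d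
      have hgγ : g (γ θ) = G (Complex.exp ((θ : ℂ) * Complex.I)) := hgf _ (hclsub (hGcl θ))
      rw [hgγ, smul_entry, mul_assoc]
    refine ⟨hrep, ?_⟩
    intro M hM
    -- continuity of the boundary values of `v`
    have hexpr : ∀ θ : ℝ, Complex.exp ((θ : ℂ) * Complex.I) ∈ {t : ℂ | r < ‖t‖} := by
      intro θ
      show r < ‖Complex.exp ((θ : ℂ) * Complex.I)‖
      rw [Complex.norm_exp_ofReal_mul_I]
      exact hr₂
    have hr_open : IsOpen {t : ℂ | r < ‖t‖} := isOpen_lt continuous_const continuous_norm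
    have hGe : Continuous (fun θ : ℝ => G (Complex.exp ((θ : ℂ) * Complex.I))) := by
      refine hG₁.continuousOn.comp_continuous (by fun_prop) hexpr
    have hB : Continuous (fun θ : ℝ => v (G (Complex.exp ((θ : ℂ) * Complex.I)))) := by
      refine continuous_pi fun c => continuous_pi fun d => ?_
      exact (hv c d).continuousOn.comp_continuous hGe (fun θ => hΩV (hGcl θ))
    have hΛc : Continuous (fun θ => (ω θ : ℂ) • Kmat C (γ θ)) :=
      (Complex.continuous_ofReal.comp hωc).smul (hKc.comp_continuous hγc hγsph)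
    have hΛpsd : ∀ θ, ((ω θ : ℂ) • Kmat C (γ θ)).PosSemidef := fun θ =>
      (Helper16.Kmat_posSemidef C hC (γ θ)).smul (by exact_mod_cast hω0 θ)
    have hmean : ∀ a b, (2 * Real.pi : ℂ)⁻¹ * (∫ θ in (0 : ℝ)..2 * Real.pi,
        ((ω θ : ℂ) • Kmat C (γ θ)) a b) = (1 : Matrix (Fin n) (Fin n) ℂ) a b := by
      intro a b
      have h1 : ∫ θ in (0:ℝ)..2 * Real.pi, ((ω θ : ℂ) • Kmat C (γ θ)) a b
          = ∫ φ in (0:ℝ)..2 * Real.pi, Kmat C (Complex.exp ((φ : ℂ) * Complex.I)) a b := by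
        rw [← Helper79.wind_change_of_variables γ ω hωc hω0 hγderiv hγnorm hγper hγinj
          (fun u => Kmat C u a b) (hKentry a b)]
        refine intervalIntegral.integral_congr fun θ _ => ?_
        exact smul_entry _ _ a b
      have h2 := poisson_formula C hdetC (R₀ := 2) (by norm_num) (w := fun _ => 1)
        (k := fun _ => 0) (differentiableOn_const _) (differentiableOn_const _) 1
        (by intro u _; simp) a b
      rw [h1]
      simpa using h2
    have hX := Helper6.norm_le_of_psd_density (fun θ => (ω θ : ℂ) • Kmat C (γ θ)) hΛc hΛpsd hmean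
      (fun θ : ℝ => v (G (Complex.exp ((θ : ℂ) * Complex.I)))) hB M (fun θ => hM _ (hGcl θ))
      (Matrix.of fun (i j : Fin n × Fin m) =>
        (S * Polynomial.aeval A (q i.2 j.2) * S⁻¹) i.1 j.1)
      (by
        intro a b c d
        show (S * Polynomial.aeval A (q c d) * S⁻¹) a b = _
        rw [← Helper40.aeval_conj S A hSdet (q c d)]
        exact hrep a b c d)
    exact Helper13.norm_conj_le S H κsq hS₁ hS₂ hH1 hH2 (fun c d => Polynomial.aeval A (q c d)) M hX

end Crest.Agent.S0181
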